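import Vale.Agent.P275.H341.Psh

/-!
# Row A1: the chain over a primitive element
-/

namespace Vale.Agent.P275.H677.A1

open scoped BigOperators
open Vale.Agent.P275.H341

variable {I : Type} (H : PSH I)

theorem deg_one : H.deg H.one = 0 :=
  (H.mem_lvl 0 H.one).1 (by rw [H.lvl_zero]; exact Finset.mem_singleton_self _)

theorem eq_one {a : I} (h : H.deg a = 0) : a = H.one := by
  have h' := (H.mem_lvl 0 a).2 h
  rw [H.lvl_zero] at h'
  exact Finset.mem_singleton.1 h'

theorem c_one_left {a x : I} (h : H.c H.one a x ≠ 0) : x = a := by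
  by_contra hx
  exact h (H.c_one_ne a x hx)

theorem c_one_right {a x : I} (h : H.c a H.one x ≠ 0) : x = a := by
  rw [H.c_comm] at h
  exact c_one_left H h

theorem c_right_one (a : I) : H.c a H.one a = 1 := by
  rw [H.c_comm]
  exact H.c_one_self a

theorem pr_ne {p : I} (hp : H.Pr p) : p ≠ H.one := by
  intro h
  have h1 := hp.1
  rw [h, deg_one] at h1
  exact lt_irrefl _ h1

theorem pr_split {p : I} (hp : H.Pr p) {a b : I} (h : H.c a b p ≠ 0) :
    (a = H.one ∧ b = p) ∨ (a = p ∧ b = H.one) := by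
  rcases hp.2 a b h with h1 | h1
  · left
    refine ⟨h1, ?_⟩
    rw [h1] at h
    exact (c_one_left H h).symm
  · right
    refine ⟨?_, h1⟩
    rw [h1] at h
    exact (c_one_right H h).symm

/-- the pairs of total degree `n` -/
noncomputable def P (n : ℕ) : Finset (I × I) := by
  classical
  exact (Finset.range (n + 1)).biUnion fun i => H.lvl i ×ˢ H.lvl (n - i)

theorem mem_P {n : ℕ} {s : I × I} : s ∈ P H n ↔ H.deg s.1 + H.deg s.2 = n := by
  classical
  unfold P
  rw [Finset.mem_biUnion]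
  constructor
  · rintro ⟨i, hi, hs⟩
    rw [Finset.mem_product, H.mem_lvl, H.mem_lvl] at hs
    have := Finset.mem_range.1 hi
    omega
  · intro h
    refine ⟨H.deg s.1, Finset.mem_range.2 (by omega), ?_⟩
    rw [Finset.mem_product, H.mem_lvl, H.mem_lvl]
    omega

theorem sum_P {M : Type} [AddCommMonoid M] (n : ℕ) (F : I → I → M) :
    ∑ s ∈ P H n, F s.1 s.2
      = ∑ i ∈ Finset.range (n + 1), ∑ a ∈ H.lvl i, ∑ b ∈ H.lvl (n - i), F a b := by
  classical
  unfold P
  rw [Finset.sum_biUnion]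
  · refine Finset.sum_congr rfl fun i _ => ?_
    rw [Finset.sum_product]
  · intro i _ j _ hij
    rw [Function.onFun, Finset.disjoint_left]
    intro s hs hs'
    rw [Finset.mem_product, H.mem_lvl, H.mem_lvl] at hs hs'
    exact hij (hs.1.symm.trans hs'.1)

/-- the Hopf axiom as a sum over pairs -/
theorem hopf_P (a b a' b' : I) :
    ∑ x ∈ H.lvl (H.deg a + H.deg b), H.c a b x * H.c a' b' x =
      ∑ s ∈ P H (H.deg a), ∑ t ∈ P H (H.deg b),
        H.c s.1 s.2 a * H.c t.1 t.2 b * (H.c s.1 t.1 a' * H.c s.2 t.2 b') := by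
  rw [H.hopf]
  rw [sum_P H (H.deg a) (fun s1 s2 => ∑ t ∈ P H (H.deg b),
    H.c s1 s2 a * H.c t.1 t.2 b * (H.c s1 t.1 a' * H.c s2 t.2 b'))]
  refine Finset.sum_congr rfl fun i _ => ?_
  rw [Finset.sum_comm]
  refine Finset.sum_congr rfl fun a1 _ => ?_
  rw [Finset.sum_comm]
  refine Finset.sum_congr rfl fun a2 _ => ?_
  rw [sum_P H (H.deg b) (fun t1 t2 =>
    H.c a1 a2 a * H.c t1 t2 b * (H.c a1 t1 a' * H.c a2 t2 b'))]

theorem sum_snd {p : I} (n : ℕ) (F : I → I → ℕ)
    (h1 : ∀ a b, F a b ≠ 0 → b = p) (h2 : ∀ a, F a p ≠ 0 → H.deg a + H.deg p = n) :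
    ∑ t ∈ P H n, F t.1 t.2 = ∑ a ∈ H.lvl (n - H.deg p), F a p := by
  refine Finset.sum_bij_ne_zero (fun t _ _ => t.1) ?_ ?_ ?_ ?_
  · intro t ht h
    have h3 := h1 _ _ h
    have h4 := (mem_P H).1 ht
    rw [h3] at h4
    rw [H.mem_lvl]
    omega
  · intro t ht h t' ht' h' he
    exact Prod.ext he ((h1 _ _ h).trans (h1 _ _ h').symm)
  · intro a ha h
    exact ⟨(a, p), (mem_P H).2 (h2 a h), h, rfl⟩
  · intro t ht h
    rw [h1 _ _ h]

/-- the Hopf axiom, one factor being primitive: `p` is a derivation -/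
theorem hopf_pr {p : I} (hp : H.Pr p) (a b u : I) :
    ∑ x ∈ H.lvl (H.deg a + H.deg b), H.c a b x * H.c u p x =
      (∑ t ∈ H.lvl (H.deg b - H.deg p), H.c t p b * H.c a t u) +
        ∑ s ∈ H.lvl (H.deg a - H.deg p), H.c s p a * H.c s b u := by
  classical
  have hne := pr_ne H hp
  rw [hopf_P]
  have key : ∀ s ∈ P H (H.deg a), (∑ t ∈ P H (H.deg b),
      H.c s.1 s.2 a * H.c t.1 t.2 b * (H.c s.1 t.1 u * H.c s.2 t.2 p))
      = (if s = (a, H.one) then (∑ t ∈ H.lvl (H.deg b - H.deg p), H.c t p b * H.c a t u) else 0)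
        + (if s.2 = p then H.c s.1 p a * H.c s.1 b u else 0) := by
    intro s hs
    by_cases h1 : s.2 = H.one
    · by_cases h2 : s.1 = a
      · have hs' : s = (a, H.one) := Prod.ext h2 h1
        subst hs'
        rw [if_pos rfl, if_neg (fun h => hne h.symm), add_zero]
        rw [sum_snd H (p := p) (H.deg b) (fun t1 t2 =>
          H.c a H.one a * H.c t1 t2 b * (H.c a t1 u * H.c H.one t2 p))]
        · refine Finset.sum_congr rfl fun t _ => ?_
          rw [c_right_one, H.c_one_self, one_mul, mul_one]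
        · intro t1 t2 h
          have h3 : H.c H.one t2 p ≠ 0 := fun h0 => h (by rw [h0, mul_zero, mul_zero])
          exact (c_one_left H h3).symm
        · intro t1 h
          have h3 : H.c t1 p b ≠ 0 := fun h0 => h (by rw [h0, mul_zero, zero_mul])
          exact (H.c_deg _ _ _ h3).symm
      · rw [if_neg (fun h => h2 (by rw [h])), if_neg (fun h => hne (h.symm.trans h1)), add_zero]
        refine Finset.sum_eq_zero fun t _ => ?_
        have h3 : H.c s.1 s.2 a = 0 := by
          by_contra h0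
          rw [h1] at h0
          exact h2 (c_one_right H h0).symm
        rw [h3, zero_mul, zero_mul]
    · rw [if_neg (fun h => h1 (by rw [h])), zero_add]
      by_cases h2 : s.2 = p
      · rw [if_pos h2, h2]
        rw [Finset.sum_eq_single (b, H.one)]
        · simp only [c_right_one, mul_one]
        · intro t _ hne'
          by_contra h0
          have h3 : H.c p t.2 p ≠ 0 := fun h => h0 (by rw [h, mul_zero, mul_zero])
          have h4 : t.2 = H.one := by
            rcases pr_split H hp h3 with h5 | h5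
            · exact absurd h5.1 hne
            · exact h5.2
          have h5 : H.c t.1 t.2 b ≠ 0 := fun h => h0 (by rw [h, mul_zero, zero_mul])
          rw [h4] at h5
          exact hne' (Prod.ext (c_one_right H h5).symm h4)
        · intro h
          exact absurd ((mem_P H).2 (by simp [deg_one])) h
      · rw [if_neg h2]
        refine Finset.sum_eq_zero fun t _ => ?_
        have h3 : H.c s.2 t.2 p = 0 := by
          by_contra h0
          rcases pr_split H hp h0 with h5 | h5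
          · exact h1 h5.1
          · exact h2 h5.1
        rw [h3, mul_zero, mul_zero]
  rw [Finset.sum_congr rfl key, Finset.sum_add_distrib]
  congr 1
  · rw [Finset.sum_ite_eq' , if_pos ((mem_P H).2 (by simp [deg_one]))]
  · rw [sum_snd H (p := p) (H.deg a) (fun s1 s2 => if s2 = p then H.c s1 p a * H.c s1 b u else 0)]
    · refine Finset.sum_congr rfl fun s _ => ?_
      rw [if_pos rfl]
    · intro s1 s2 h
      by_contra h0
      exact h (if_neg h0)
    · intro s1 h
      rw [if_pos rfl] at h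
      have h3 : H.c s1 p a ≠ 0 := fun h0 => h (by rw [h0, zero_mul])
      exact (H.c_deg _ _ _ h3).symm

/-- the existence form -/
theorem hopf_ex {p : I} (hp : H.Pr p) {a b u x : I} (h1 : H.c a b x ≠ 0) (h2 : H.c u p x ≠ 0) :
    (∃ t, H.c t p b ≠ 0 ∧ H.c a t u ≠ 0) ∨ (∃ s, H.c s p a ≠ 0 ∧ H.c s b u ≠ 0) := by
  by_contra hcon
  rw [not_or] at hcon
  obtain ⟨hc1, hc2⟩ := hcon
  have hx : x ∈ H.lvl (H.deg a + H.deg b) := (H.mem_lvl _ _).2 (H.c_deg _ _ _ h1)
  have h3 := hopf_pr H hp a b u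
  have h4 : ∑ t ∈ H.lvl (H.deg b - H.deg p), H.c t p b * H.c a t u = 0 := by
    refine Finset.sum_eq_zero fun t _ => ?_
    by_contra h0
    exact hc1 ⟨t, left_ne_zero_of_mul h0, right_ne_zero_of_mul h0⟩
  have h5 : ∑ s ∈ H.lvl (H.deg a - H.deg p), H.c s p a * H.c s b u = 0 := by
    refine Finset.sum_eq_zero fun t _ => ?_
    by_contra h0
    exact hc2 ⟨t, left_ne_zero_of_mul h0, right_ne_zero_of_mul h0⟩
  rw [h4, h5, add_zero, Finset.sum_eq_zero_iff] at h3
  exact mul_ne_zero h1 h2 (h3 x hx)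

/-- associativity, the existence form -/
theorem assoc_ex {a b d y x : I} (h1 : H.c a b y ≠ 0) (h2 : H.c y d x ≠ 0) :
    ∃ e, H.c b d e ≠ 0 ∧ H.c a e x ≠ 0 := by
  by_contra hcon
  have hy : y ∈ H.lvl (H.deg a + H.deg b) := (H.mem_lvl _ _).2 (H.c_deg _ _ _ h1)
  have h3 := H.c_assoc a b d x
  have h4 : ∑ y ∈ H.lvl (H.deg b + H.deg d), H.c b d y * H.c a y x = 0 := by
    refine Finset.sum_eq_zero fun t _ => ?_
    by_contra h0
    exact hcon ⟨t, left_ne_zero_of_mul h0, right_ne_zero_of_mul h0⟩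
  rw [h4, Finset.sum_eq_zero_iff] at h3
  exact mul_ne_zero h1 h2 (h3 y hy)

/-- a vector of norm two -/
theorem norm_two {L : Finset I} {f : I → ℕ} (h : ∑ x ∈ L, f x * f x = 2) {z : I} (hz : z ∈ L)
    (hfz : f z ≠ 0) : f z = 1 ∧ ∃ w ∈ L, w ≠ z ∧ f w = 1 ∧ ∀ x ∈ L, f x ≠ 0 → x = z ∨ x = w := by
  classical
  have h1 := Finset.add_sum_erase L (fun x => f x * f x) hz
  rw [h] at h1
  have hz1 : f z = 1 := by
    by_contra h0
    have h2 : 2 ≤ f z := by omega
    have h3 : 2 * 2 ≤ f z * f z := Nat.mul_le_mul h2 h2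
    omega
  refine ⟨hz1, ?_⟩
  simp only [hz1] at h1
  have h2 : ∑ x ∈ L.erase z, f x * f x = 1 := by omega
  obtain ⟨w, hw, hfw⟩ : ∃ w ∈ L.erase z, f w * f w ≠ 0 := by
    by_contra hcon
    push Not at hcon
    rw [Finset.sum_eq_zero hcon] at h2
    exact absurd h2 (by norm_num)
  have h3 := Finset.add_sum_erase (L.erase z) (fun x => f x * f x) hw
  rw [h2] at h3
  have hw1 : f w = 1 := by
    by_contra h0
    have h4 : f w ≠ 0 := left_ne_zero_of_mul hfw
    have h5 : 2 ≤ f w := by omega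
    have h6 : 2 * 2 ≤ f w * f w := Nat.mul_le_mul h5 h5
    omega
  simp only [hw1] at h3
  have h4 : ∑ x ∈ (L.erase z).erase w, f x * f x = 0 := by omega
  rw [Finset.sum_eq_zero_iff] at h4
  refine ⟨w, Finset.mem_of_mem_erase hw, Finset.ne_of_mem_erase hw, hw1, fun x hx hfx => ?_⟩
  by_contra hcon
  rw [not_or] at hcon
  exact mul_ne_zero hfx hfx (h4 x (Finset.mem_erase.2 ⟨hcon.2, Finset.mem_erase.2 ⟨hcon.1, hx⟩⟩))

/-- the product of an element with a primitive element, one predecessor -/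
theorem norm_v {p : I} (hp : H.Pr p) {v v' : I} (h1 : ∀ s, H.c s p v ≠ 0 → s = v')
    (h2 : H.c v' p v = 1) :
    ∑ x ∈ H.lvl (H.deg v + H.deg p), H.c v p x * H.c v p x = 2 := by
  rw [hopf_pr H hp]
  have hd : H.deg v = H.deg v' + H.deg p := H.c_deg _ _ _ (by rw [h2]; exact one_ne_zero)
  rw [Nat.sub_self, H.lvl_zero, Finset.sum_singleton, H.c_one_self, c_right_one]
  rw [Finset.sum_eq_single v', h2]
  · intro s _ hs
    by_contra h0
    exact hs (h1 s (left_ne_zero_of_mul h0))
  · intro h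
    exact absurd ((H.mem_lvl _ _).2 (by omega)) h

/-- one step of the chain -/
theorem step_ex {p : I} (hp : H.Pr p) {y : I} (hy : H.c p p y = 1)
    (hy' : ∀ a, H.c a p y ≠ 0 → a = p) {v v' : I} (h1 : ∀ s, H.c s p v ≠ 0 → s = v')
    (h2 : H.c v' p v = 1) (h3 : ∀ b, H.c y b v = 0) :
    ∃ u w, u ≠ w ∧ H.c v p u = 1 ∧ H.c v p w = 1 ∧ (∀ e, H.c v p e ≠ 0 → e = u ∨ e = w) ∧
      (∀ b, H.c y b u = 0) ∧ H.c y v' w ≠ 0 := by
  classical
  have hyd : H.deg y = H.deg p + H.deg p := H.c_deg _ _ _ (by rw [hy]; exact one_ne_zero)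
  have pair : ∀ b, ∑ x ∈ H.lvl (H.deg y + H.deg b), H.c y b x * H.c v p x = H.c p b v := by
    intro b
    rw [hopf_pr H hp]
    rw [Finset.sum_eq_zero (fun t _ => by rw [h3, mul_zero]), zero_add]
    rw [Finset.sum_eq_single p, hy, one_mul]
    · intro s _ hs
      by_contra h0
      exact hs (hy' s (left_ne_zero_of_mul h0))
    · intro h
      exact absurd ((H.mem_lvl _ _).2 (by omega)) h
  have hv := norm_v H hp h1 h2
  have hp2 : H.c p v' v = 1 := by rw [H.c_comm]; exact h2
  obtain ⟨w, hwL, hw⟩ : ∃ w ∈ H.lvl (H.deg y + H.deg v'), H.c y v' w * H.c v p w ≠ 0 := by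
    by_contra hcon
    push Not at hcon
    have h4 := pair v'
    rw [Finset.sum_eq_zero hcon, hp2] at h4
    exact absurd h4 (by norm_num)
  have hw1 := left_ne_zero_of_mul hw
  have hw2 := right_ne_zero_of_mul hw
  obtain ⟨hw3, u, huL, huw, hu1, hall⟩ := norm_two hv ((H.mem_lvl _ _).2 (H.c_deg _ _ _ hw2)) hw2
  refine ⟨u, w, huw, hu1, hw3, ?_, ?_, hw1⟩
  · intro e he
    exact (hall e ((H.mem_lvl _ _).2 (H.c_deg _ _ _ he)) he).symm
  · intro b
    by_contra h0
    have h4 := pair b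
    have h5 : H.c y b u * H.c v p u ≤ H.c p b v := by
      rw [← h4]
      exact Finset.single_le_sum (f := fun x => H.c y b x * H.c v p x)
        (fun _ _ => Nat.zero_le _) ((H.mem_lvl _ _).2 (H.c_deg _ _ _ h0))
    rw [hu1, mul_one] at h5
    have h6 : H.c b p v ≠ 0 := by rw [H.c_comm]; omega
    have h7 := h1 b h6
    subst h7
    have h8 : ∑ x ∈ ({u, w} : Finset I), H.c y b x * H.c v p x ≤ H.c p b v := by
      rw [← pair b]
      refine Finset.sum_le_sum_of_subset ?_
      intro x hx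
      rcases Finset.mem_insert.1 hx with h9 | h9
      · rw [h9]
        exact (H.mem_lvl _ _).2 (H.c_deg _ _ _ h0)
      · rw [Finset.mem_singleton.1 h9]
        exact hwL
    rw [Finset.sum_pair huw, hu1, hw3, mul_one, mul_one, hp2] at h8
    omega

/-- only `p` completes to `y` -/
theorem only_p {p : I} (hp : H.Pr p) {y : I} (hy : H.c p p y = 1) {a : I} (ha : H.c a p y ≠ 0) :
    a = p := by
  have hyd : H.deg y = H.deg p + H.deg p := H.c_deg _ _ _ (by rw [hy]; exact one_ne_zero)
  have had : H.deg y = H.deg a + H.deg p := H.c_deg _ _ _ ha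
  have hpp : H.c p p y ≠ 0 := by rw [hy]; exact one_ne_zero
  rcases hopf_ex H hp ha hpp with ⟨t, h1, h2⟩ | ⟨s, h1, h2⟩
  · have h3 := H.c_deg _ _ _ h1
    have h4 : t = H.one := eq_one H (by omega)
    rw [h4] at h2
    exact (c_one_right H h2).symm
  · have h3 := H.c_deg _ _ _ h1
    have h4 : s = H.one := eq_one H (by omega)
    rw [h4] at h1
    exact c_one_left H h1

/-- what is known at level `k` -/
structure Lv (p y : I) (x : ℕ → I) (k : ℕ) : Prop where
  deg : H.deg (x k) = k * H.deg p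
  cself : ∀ i j, i + j = k → H.c (x i) (x j) (x k) = 1
  cne : ∀ a b, H.c a b (x k) ≠ 0 → ∃ i j, i + j = k ∧ a = x i ∧ b = x j
  kill : ∀ b, H.c y b (x k) = 0
  oth : 2 ≤ k → ∃ w, (∀ u, H.c (x (k - 1)) p u ≠ 0 → u = x k ∨ u = w) ∧
    H.c y (x (k - 2)) w ≠ 0 ∧ w ≠ x k

theorem idx {p y : I} (hp : H.Pr p) {x : ℕ → I} {k i : ℕ} (h : Lv H p y x i)
    (hd : H.deg (x i) = k * H.deg p) : i = k := by
  rw [h.deg] at hd
  exact Nat.eq_of_mul_eq_mul_right hp.1 hd

theorem lv_zero {p y : I} (hp : H.Pr p) (hy : H.c p p y = 1) {x : ℕ → I} (h0 : x 0 = H.one) :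
    Lv H p y x 0 := by
  have hyd : H.deg y = H.deg p + H.deg p := H.c_deg _ _ _ (by rw [hy]; exact one_ne_zero)
  have hpos := hp.1
  refine ⟨by rw [h0, deg_one, zero_mul], ?_, ?_, ?_, fun h => absurd h (by norm_num)⟩
  · intro i j hij
    have hi : i = 0 := by omega
    have hj : j = 0 := by omega
    rw [hi, hj, h0]
    exact H.c_one_self _
  · intro a b h
    rw [h0] at h
    have h1 := H.c_deg _ _ _ h
    rw [deg_one] at h1
    exact ⟨0, 0, rfl, by rw [h0]; exact eq_one H (by omega), by rw [h0]; exact eq_one H (by omega)⟩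
  · intro b
    by_contra h
    rw [h0] at h
    have h1 := H.c_deg _ _ _ h
    rw [deg_one] at h1
    omega

theorem lv_one {p y : I} (hp : H.Pr p) (hy : H.c p p y = 1) {x : ℕ → I} (h0 : x 0 = H.one)
    (h1 : x 1 = p) : Lv H p y x 1 := by
  have hyd : H.deg y = H.deg p + H.deg p := H.c_deg _ _ _ (by rw [hy]; exact one_ne_zero)
  have hpos := hp.1
  refine ⟨by rw [h1, one_mul], ?_, ?_, ?_, fun h => absurd h (by norm_num)⟩
  · intro i j hij
    have h2 : (i = 0 ∧ j = 1) ∨ (i = 1 ∧ j = 0) := by omega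
    rcases h2 with ⟨hi, hj⟩ | ⟨hi, hj⟩
    · rw [hi, hj, h0]
      exact H.c_one_self _
    · rw [hi, hj, h0]
      exact c_right_one H _
  · intro a b h
    rw [h1] at h
    rcases pr_split H hp h with ⟨h2, h3⟩ | ⟨h2, h3⟩
    · exact ⟨0, 1, rfl, by rw [h0, h2], by rw [h1, h3]⟩
    · exact ⟨1, 0, rfl, by rw [h1, h2], by rw [h0, h3]⟩
  · intro b
    by_contra h
    rw [h1] at h
    have h2 := H.c_deg _ _ _ h
    omega

/-- the properties of `x (k + 1)` needed for the step -/
theorem lv_pre {p y : I} (hp : H.Pr p) {x : ℕ → I} (h1 : x 1 = p) {k : ℕ}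
    (ih : ∀ j, j < k + 2 → Lv H p y x j) :
    (∀ s, H.c s p (x (k + 1)) ≠ 0 → s = x k) ∧ H.c (x k) p (x (k + 1)) = 1 := by
  constructor
  · intro s hs
    obtain ⟨i, j, hij, hi, hj⟩ := (ih (k + 1) (by omega)).cne s p hs
    have h2 : j = 1 := idx H hp (ih j (by omega)) (by rw [← hj, one_mul])
    have h3 : i = k := by omega
    rw [hi, h3]
  · have h2 := (ih (k + 1) (by omega)).cself k 1 rfl
    rw [h1] at h2
    exact h2

/-- the half of `cne` for the step -/
theorem cne_half {p y : I} (_hp : H.Pr p) {x : ℕ → I} (h0 : x 0 = H.one) (h1 : x 1 = p) {k : ℕ}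
    (ih : ∀ j, j < k + 2 → Lv H p y x j) (hk : ∀ b, H.c y b (x (k + 2)) = 0) {a b t : I}
    (hab : H.c a b (x (k + 2)) ≠ 0) (ht : H.c t p b ≠ 0) (hat : H.c a t (x (k + 1)) ≠ 0) :
    ∃ i j, i + j = k + 2 ∧ a = x i ∧ b = x j := by
  obtain ⟨i, j, hij, hi, hj⟩ := (ih (k + 1) (by omega)).cne a t hat
  rcases Nat.eq_zero_or_pos j with hj0 | hjp
  · refine ⟨k + 1, 1, rfl, ?_, ?_⟩
    · rw [hi]
      congr 1
      omega
    · rw [hj, hj0, h0] at ht
      rw [h1]
      exact c_one_left H ht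
  rcases Nat.eq_zero_or_pos i with hi0 | hip
  · refine ⟨0, k + 2, by omega, by rw [hi, hi0], ?_⟩
    rw [hi, hi0, h0] at hab
    exact (c_one_left H hab).symm
  obtain ⟨w, hw1, hw2, hw3⟩ := (ih (j + 1) (by omega)).oth (by omega)
  have h2 : j + 1 - 1 = j := by omega
  rw [h2, ← hj] at hw1
  rcases hw1 b ht with h3 | h3
  · exact ⟨i, j + 1, by omega, hi, h3⟩
  · exfalso
    rw [← h3] at hw2
    rw [H.c_comm] at hab
    obtain ⟨e, _, he⟩ := assoc_ex H hw2 hab
    exact he (hk e)

/-- the step -/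
theorem lv_step {p y : I} (hp : H.Pr p) (hy : H.c p p y = 1) {x : ℕ → I} (h0 : x 0 = H.one)
    (h1 : x 1 = p) {k : ℕ} (ih : ∀ j, j < k + 2 → Lv H p y x j)
    (hx : H.c (x (k + 1)) p (x (k + 2)) ≠ 0) (hk : ∀ b, H.c y b (x (k + 2)) = 0) :
    Lv H p y x (k + 2) := by
  obtain ⟨hpre1, hpre2⟩ := lv_pre H hp h1 ih
  obtain ⟨u, w, huw, hu, hw, hall, hku, hkw⟩ := step_ex H hp hy (fun a => only_p H hp hy)
    hpre1 hpre2 (ih (k + 1) (by omega)).kill
  have hxu : x (k + 2) = u := by
    rcases hall _ hx with h | h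
    · exact h
    · exact absurd (h ▸ hk (x k)) hkw
  have hx1 : H.c (x (k + 1)) p (x (k + 2)) = 1 := by rw [hxu]; exact hu
  have hcne : ∀ a b, H.c a b (x (k + 2)) ≠ 0 → ∃ i j, i + j = k + 2 ∧ a = x i ∧ b = x j := by
    intro a b hab
    rcases hopf_ex H hp hab hx with ⟨t, ht, hat⟩ | ⟨s, hs, hsb⟩
    · exact cne_half H hp h0 h1 ih hk hab ht hat
    · rw [H.c_comm] at hab hsb
      obtain ⟨i, j, hij, hi, hj⟩ := cne_half H hp h0 h1 ih hk hab hs hsb
      exact ⟨j, i, by omega, hj, hi⟩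
  have hdeg : H.deg (x (k + 2)) = (k + 2) * H.deg p := by
    rw [H.c_deg _ _ _ hx, (ih (k + 1) (by omega)).deg]
    ring
  have hcp : ∀ e, H.c p e (x (k + 2)) ≠ 0 → e = x (k + 1) := by
    intro e he
    have hed := H.c_deg _ _ _ he
    obtain ⟨i, j, hij, hi, hj⟩ := hcne p e he
    rcases Nat.lt_or_ge i (k + 2) with h2 | h2
    · have h3 : i = 1 := idx H hp (ih i h2) (by rw [← hi, one_mul])
      rw [hj]
      congr 1
      omega
    · exfalso
      have h3 : i = k + 2 := by omega
      rw [h3] at hi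
      rw [← hi] at hdeg
      have := hp.1
      nlinarith
  refine ⟨hdeg, ?_, hcne, hk, ?_⟩
  · intro i j hij
    rcases Nat.eq_zero_or_pos i with hi | hi
    · have hj : j = k + 2 := by omega
      rw [hi, hj, h0]
      exact H.c_one_self _
    rcases Nat.eq_zero_or_pos j with hj | hj
    · have hi' : i = k + 2 := by omega
      rw [hj, hi', h0]
      exact c_right_one H _
    obtain ⟨i, rfl⟩ : ∃ i', i = i' + 1 := ⟨i - 1, by omega⟩
    have has := H.c_assoc p (x i) (x j) (x (k + 2))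
    have hpi : H.c p (x i) (x (i + 1)) = 1 := by
      have := (ih (i + 1) (by omega)).cself 1 i (by omega)
      rw [h1] at this
      exact this
    have hd1 := (ih (i + 1) (by omega)).deg
    have hL : ∑ e ∈ H.lvl (H.deg p + H.deg (x i)), H.c p (x i) e * H.c e (x j) (x (k + 2))
        = H.c (x (i + 1)) (x j) (x (k + 2)) := by
      rw [Finset.sum_eq_single (x (i + 1)), hpi, one_mul]
      · intro e he hne
        by_contra h
        obtain ⟨i', j', hij', hi', hj'⟩ := hcne e (x j) (right_ne_zero_of_mul h)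
        have he' := (H.mem_lvl _ _).1 he
        rw [(ih i (by omega)).deg] at he'
        rcases Nat.lt_or_ge i' (k + 2) with h2 | h2
        · have h3 : i' = i + 1 := idx H hp (ih i' h2) (by rw [← hi', he']; ring)
          rw [h3] at hi'
          exact hne hi'
        · have h3 : i' = k + 2 := by omega
          rw [h3] at hi'
          rw [hi', hdeg] at he'
          have h4 : (k + 2) * H.deg p = (i + 1) * H.deg p := by rw [he']; ring
          have h5 := Nat.eq_of_mul_eq_mul_right hp.1 h4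
          omega
      · intro h
        refine absurd ((H.mem_lvl _ _).2 ?_) h
        rw [hd1, (ih i (by omega)).deg]
        ring
    have hR : ∑ e ∈ H.lvl (H.deg (x i) + H.deg (x j)), H.c (x i) (x j) e * H.c p e (x (k + 2))
        = 1 := by
      rw [Finset.sum_eq_single (x (k + 1))]
      · rw [(ih (k + 1) (by omega)).cself i j (by omega), H.c_comm p, hx1]
      · intro e _ hne
        by_contra h
        exact hne (hcp e (right_ne_zero_of_mul h))
      · intro h
        refine absurd ((H.mem_lvl _ _).2 ?_) h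
        rw [(ih i (by omega)).deg, (ih j (by omega)).deg, (ih (k + 1) (by omega)).deg,
          ← add_mul]
        congr 1
        omega
    rw [hL, hR] at has
    exact has
  · intro _
    refine ⟨w, ?_, ?_, ?_⟩
    · intro e he
      rw [hxu]
      exact hall e he
    · exact hkw
    · rw [hxu]
      exact fun h => huw h.symm

open scoped Classical in
/-- the chain -/
noncomputable def xs (p y : I) : ℕ → I
  | 0 => H.one
  | 1 => p
  | k + 2 => if h : ∃ u, H.c (xs p y (k + 1)) p u ≠ 0 ∧ ∀ b, H.c y b u = 0 then h.choose else H.one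

theorem xs_zero (p y : I) : xs H p y 0 = H.one := by rw [xs]

theorem xs_one (p y : I) : xs H p y 1 = p := by rw [xs]

theorem lv_xs {p y : I} (hp : H.Pr p) (hy : H.c p p y = 1) (k : ℕ) :
    Lv H p y (xs H p y) k := by
  induction k using Nat.strong_induction_on with
  | _ k ih =>
    rcases k with _ | _ | k
    · exact lv_zero H hp hy (xs_zero H p y)
    · exact lv_one H hp hy (xs_zero H p y) (xs_one H p y)
    · obtain ⟨hpre1, hpre2⟩ := lv_pre H hp (xs_one H p y) ih
      obtain ⟨u, w, huw, hu, hw, hall, hku, hkw⟩ := step_ex H hp hy (fun a => only_p H hp hy)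
        hpre1 hpre2 (ih (k + 1) (by omega)).kill
      have hex : ∃ u, H.c (xs H p y (k + 1)) p u ≠ 0 ∧ ∀ b, H.c y b u = 0 :=
        ⟨u, by rw [hu]; exact one_ne_zero, hku⟩
      have hch : xs H p y (k + 2) = hex.choose := by
        rw [xs, dif_pos hex]
      refine lv_step H hp hy (xs_zero H p y) (xs_one H p y) ih ?_ ?_
      · rw [hch]
        exact hex.choose_spec.1
      · rw [hch]
        exact hex.choose_spec.2

theorem chain_deg {p : I} {x : ℕ → I} (h : H.Chain p x) (k : ℕ) :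
    H.deg (x k) = k * H.deg p := by
  induction k with
  | zero => rw [h.zero, deg_one, zero_mul]
  | succ k ih =>
    have h1 := H.c_deg _ _ _ (show H.c (x k) (x 1) (x (k + 1)) ≠ 0 by
      rw [h.cself]
      exact one_ne_zero)
    rw [h1, ih, h.first]
    ring

theorem rowA1 : RowA1 := by
  intro I H p z hp hz
  have hnorm := norm_v H hp (v := p) (v' := H.one)
    (fun s hs => by
      rcases pr_split H hp hs with h | h
      · exact h.1
      · exact absurd h.2 (pr_ne H hp)) (H.c_one_self p)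
  obtain ⟨hz1, y, hyL, hyz, hy, hall⟩ :=
    norm_two hnorm ((H.mem_lvl _ _).2 (H.c_deg _ _ _ hz)) hz
  have hlv := lv_xs H hp hy
  set x := xs H p y with hxdef
  have hx0 : x 0 = H.one := xs_zero H p y
  have hx1 : x 1 = p := xs_one H p y
  have hch : H.Chain p x := ⟨hx0, hx1, fun i j => (hlv (i + j)).cself i j rfl,
    fun k a b h => (hlv k).cne a b h⟩
  have hx2 : x 2 = z := by
    have h1 := (hlv 2).cself 1 1 rfl
    rw [hx1] at h1
    have h2 : H.c p p (x 2) ≠ 0 := by rw [h1]; exact one_ne_zero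
    rcases hall (x 2) ((H.mem_lvl _ _).2 (H.c_deg _ _ _ h2)) h2 with h3 | h3
    · exact h3
    · exfalso
      have h4 := (hlv 2).kill H.one
      rw [h3, c_right_one] at h4
      exact one_ne_zero h4
  refine ⟨x, ⟨hch, hx2⟩, ?_⟩
  rintro x' ⟨hch', hx2'⟩
  funext k
  induction k using Nat.strong_induction_on with
  | _ k ih =>
    rcases k with _ | _ | k
    · rw [hch'.zero, hx0]
    · rw [hch'.first, hx1]
    · have h1 : H.c (x (k + 1)) p (x' (k + 2)) ≠ 0 := by
        rw [← ih (k + 1) (by omega)]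
        have h2 := hch'.cself (k + 1) 1
        rw [hch'.first] at h2
        rw [h2]
        exact one_ne_zero
      obtain ⟨w, hw1, hw2, hw3⟩ := (hlv (k + 2)).oth (by omega)
      rcases hw1 (x' (k + 2)) h1 with h3 | h3
      · exact h3
      · exfalso
        rw [← h3] at hw2
        obtain ⟨i, j, hij, hi, hj⟩ := hch'.cne _ _ _ hw2
        have hyd : H.deg y = 2 * H.deg p := by
          rw [(H.mem_lvl _ _).1 hyL]
          ring
        rw [hi, chain_deg H hch'] at hyd
        have h4 : i = 2 := Nat.eq_of_mul_eq_mul_right hp.1 hyd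
        rw [h4, hx2'] at hi
        exact hyz hi

end Vale.Agent.P275.H677.A1

namespace Vale.Agent.P275.H677

theorem rowA1 : Vale.Agent.P275.H341.RowA1 := A1.rowA1

end Vale.Agent.P275.H677
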