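import Vale.Agent.P275.H677.Pt

/-!
# Row A4: the generating function of the fixed elements
-/

namespace Vale.Agent.P275.H677.A4

open scoped BigOperators
open Vale.Agent.P275.H341 Vale.Agent.P275.H677.A1 Vale.Agent.P275.H677.Pt

/-- the hypotheses of the row -/
structure Dat {I : Type} (H : PSH I) (τ : H.Aut) (W : I → ℂ)
    (S : I → (k : ℕ) → (Fin k → ℕ) → I) (X : I → ℕ → I) (Q : Finset I) (j : I → ℕ)
    (fx : ℕ → Finset I) : Prop where
  W1 : W H.one = 1
  Wm : ∀ a b z, H.IsProd a b z → W z = W a * W b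
  fam : ∀ p, H.Pr p → H.Chain p (X p) ∧ H.Fam p (X p) (S p)
  tS : ∀ p, H.Pr p → ∀ k, ∀ lam ∈ Pt k, τ.t (S p k lam) = S (τ.t p) k lam
  orb : ∀ q ∈ Q, H.Pr q ∧ 0 < j q ∧ (τ.t ^ j q) q = q ∧ ∀ i, 0 < i → i < j q → (τ.t ^ i) q ≠ q
  dis : ∀ q ∈ Q, ∀ q' ∈ Q, ∀ i : ℕ, (τ.t ^ i) q = q' → q = q'
  mem : ∀ n z, z ∈ fx n ↔ z ∈ H.lvl n ∧ τ.t z = z

theorem pow_app {I : Type} (σ : Equiv.Perm I) (i : ℕ) (q : I) :
    (σ ^ (i + 1)) q = σ ((σ ^ i) q) := by
  rw [pow_succ', Equiv.Perm.mul_apply]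

theorem pow_add_app {I : Type} (σ : Equiv.Perm I) (a b : ℕ) (q : I) :
    (σ ^ (a + b)) q = (σ ^ a) ((σ ^ b) q) := by
  rw [pow_add, Equiv.Perm.mul_apply]

theorem pow_fix {I : Type} (σ : Equiv.Perm I) {j : ℕ} {q : I} (h : (σ ^ j) q = q) (m : ℕ) :
    (σ ^ (j * m)) q = q := by
  induction m with
  | zero => rw [mul_zero, pow_zero, Equiv.Perm.one_apply]
  | succ m ih => rw [Nat.mul_succ, pow_add_app, h, ih]

theorem fix_pow {I : Type} (σ : Equiv.Perm I) {z : I} (h : σ z = z) (m : ℕ) :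
    (σ ^ m) z = z := by
  induction m with
  | zero => rw [pow_zero, Equiv.Perm.one_apply]
  | succ m ih => rw [pow_app, ih, h]

open scoped Classical in
/-- the orbit -/
noncomputable def orbf {I : Type} (σ : Equiv.Perm I) (j : ℕ) (q : I) : Finset I :=
  (Finset.range j).image fun i => (σ ^ i) q

theorem mem_orbf {I : Type} (σ : Equiv.Perm I) {j : ℕ} {q p : I} :
    p ∈ orbf σ j q ↔ ∃ i, i < j ∧ (σ ^ i) q = p := by
  classical
  unfold orbf
  rw [Finset.mem_image]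
  constructor
  · rintro ⟨i, hi, h⟩
    exact ⟨i, Finset.mem_range.1 hi, h⟩
  · rintro ⟨i, hi, h⟩
    exact ⟨i, Finset.mem_range.2 hi, h⟩

theorem self_mem_orbf {I : Type} (σ : Equiv.Perm I) {j : ℕ} (hj : 0 < j) (q : I) :
    q ∈ orbf σ j q :=
  (mem_orbf σ).2 ⟨0, hj, by rw [pow_zero, Equiv.Perm.one_apply]⟩

theorem orbf_step {I : Type} (σ : Equiv.Perm I) {j : ℕ} (hj : 0 < j) {q : I}
    (h : (σ ^ j) q = q) (p : I) : σ p ∈ orbf σ j q ↔ p ∈ orbf σ j q := by
  rw [mem_orbf, mem_orbf]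
  constructor
  · rintro ⟨i, hi, he⟩
    rcases Nat.eq_zero_or_pos i with h0 | h0
    · refine ⟨j - 1, by omega, ?_⟩
      rw [h0, pow_zero, Equiv.Perm.one_apply] at he
      apply σ.injective
      rw [← he, ← pow_app, Nat.sub_add_cancel hj, h]
    · refine ⟨i - 1, by omega, ?_⟩
      apply σ.injective
      rw [← he, ← pow_app, Nat.sub_add_cancel h0]
  · rintro ⟨i, hi, he⟩
    rcases Nat.lt_or_ge (i + 1) j with h1 | h1
    · exact ⟨i + 1, h1, by rw [pow_app, he]⟩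
    · refine ⟨0, hj, ?_⟩
      have h2 : i + 1 = j := by omega
      rw [pow_zero, Equiv.Perm.one_apply, ← he, ← pow_app, h2, h]

theorem orbf_pow {I : Type} (σ : Equiv.Perm I) {j : ℕ} (hj : 0 < j) {q : I}
    (h : (σ ^ j) q = q) (i : ℕ) : (σ ^ i) q ∈ orbf σ j q := by
  induction i with
  | zero => rw [pow_zero, Equiv.Perm.one_apply]; exact self_mem_orbf σ hj q
  | succ i ih => rw [pow_app, orbf_step σ hj h]; exact ih

theorem orb_inj {I : Type} (σ : Equiv.Perm I) {j : ℕ} {q : I}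
    (h : ∀ i, 0 < i → i < j → (σ ^ i) q ≠ q) :
    Set.InjOn (fun i : ℕ => (σ ^ i) q) (Finset.range j : Set ℕ) := by
  have key : ∀ a b, a < b → b < j → (σ ^ a) q ≠ (σ ^ b) q := by
    intro a b hab hb he
    have h1 : b = a + (b - a) := by omega
    rw [h1, pow_add_app] at he
    exact h (b - a) (by omega) (by omega) ((σ ^ a).injective he).symm
  intro a ha b hb he
  have ha' := Finset.mem_range.1 (Finset.mem_coe.1 ha)
  have hb' := Finset.mem_range.1 (Finset.mem_coe.1 hb)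
  rcases Nat.lt_trichotomy a b with h1 | h1 | h1
  · exact absurd he (key a b h1 hb')
  · exact h1
  · exact absurd he.symm (key b a h1 ha')

variable {I : Type} {H : PSH I} {τ : H.Aut} {W : I → ℂ}
  {S : I → (k : ℕ) → (Fin k → ℕ) → I} {X : I → ℕ → I} {Q : Finset I} {j : I → ℕ}
  {fx : ℕ → Finset I}

open scoped Classical in
/-- the fixed elements over the orbits of `R` -/
noncomputable def Fn (τ : H.Aut) (fx : ℕ → Finset I) (n : ℕ) (R : Finset I) : Finset I :=
  (fx n).filter fun z => ∀ p, H.Pr p → Dv H p z → ∃ q ∈ R, ∃ i : ℕ, (τ.t ^ i) q = p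

theorem mem_Fn (d : Dat H τ W S X Q j fx) {n : ℕ} {R : Finset I} {z : I} :
    z ∈ Fn τ fx n R ↔ (H.deg z = n ∧ τ.t z = z) ∧
      ∀ p, H.Pr p → Dv H p z → ∃ q ∈ R, ∃ i : ℕ, (τ.t ^ i) q = p := by
  classical
  unfold Fn
  rw [Finset.mem_filter, d.mem, H.mem_lvl]

theorem pr_pow {p : I} (hp : H.Pr p) (i : ℕ) : H.Pr ((τ.t ^ i) p) := by
  induction i with
  | zero => rw [pow_zero, Equiv.Perm.one_apply]; exact hp
  | succ i ih => rw [pow_app]; exact H510.aut_pr H τ ih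

theorem deg_pow (p : I) (i : ℕ) : H.deg ((τ.t ^ i) p) = H.deg p := by
  induction i with
  | zero => rw [pow_zero, Equiv.Perm.one_apply]
  | succ i ih => rw [pow_app, τ.deg, ih]

theorem S_pow (d : Dat H τ W S X Q j fx) {p : I} (hp : H.Pr p) {k : ℕ} {lam : Fin k → ℕ}
    (hl : lam ∈ Pt k) (i : ℕ) : (τ.t ^ i) (S p k lam) = S ((τ.t ^ i) p) k lam := by
  induction i with
  | zero => simp only [pow_zero, Equiv.Perm.one_apply]
  | succ i ih => rw [pow_app, pow_app, ih, d.tS _ (pr_pow hp i) k lam hl]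

theorem pi_pow (hA : RowA3) {p z : I} (hp : H.Pr p) (hz : τ.t z = z) (i : ℕ) :
    pi H ((τ.t ^ i) p) z = (τ.t ^ i) (pi H p z) := by
  induction i with
  | zero => simp only [pow_zero, Equiv.Perm.one_apply]
  | succ i ih =>
    rw [pow_app, pow_app, ← ih, ← pi_aut H hA τ (pr_pow hp i), hz]

/-- the elements with parts of the same shape over the orbit of `q` -/
def Sp (O : Finset I) (S : I → (k : ℕ) → (Fin k → ℕ) → I) (H : PSH I) (k : ℕ)
    (lam : Fin k → ℕ) (b z : I) : Prop :=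
  (∀ p ∈ O, pi H p z = S p k lam) ∧ ∀ p, H.Pr p → p ∉ O → pi H p z = pi H p b

theorem Sp.unique (hA : RowA3) {O : Finset I} {k : ℕ} {lam : Fin k → ℕ} {b z z' : I}
    (h : Sp O S H k lam b z) (h' : Sp O S H k lam b z') : z = z' := by
  refine pi_ext H hA fun p hp => ?_
  by_cases hO : p ∈ O
  · rw [h.1 p hO, h'.1 p hO]
  · rw [h.2 p hp hO, h'.2 p hp hO]

theorem O_pr (d : Dat H τ W S X Q j fx) {q : I} (hq : q ∈ Q) :
    ∀ p ∈ orbf τ.t (j q) q, H.Pr p := by
  intro p hp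
  obtain ⟨i, _, rfl⟩ := (mem_orbf _).1 hp
  exact pr_pow (d.orb q hq).1 i

theorem disj (d : Dat H τ W S X Q j fx) {q : I} (hq : q ∈ Q) {R : Finset I} (hR : R ⊆ Q)
    (hqR : q ∉ R) {p : I} (hp : p ∈ orbf τ.t (j q) q) :
    ¬ ∃ q' ∈ R, ∃ i : ℕ, (τ.t ^ i) q' = p := by
  rintro ⟨q', hq', b, hb⟩
  obtain ⟨a, _, ha⟩ := (mem_orbf _).1 hp
  have h1 := d.orb q' (hR hq')
  have h2 : (τ.t ^ (j q' * b)) q' = q' := pow_fix _ h1.2.2.1 b
  have h3 : j q' * b = (j q' * b - b) + b := by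
    have : 1 * b ≤ j q' * b := Nat.mul_le_mul_right b h1.2.1
    omega
  rw [h3, pow_add_app, hb, ← ha, ← pow_add_app] at h2
  have h4 := d.dis q hq q' (hR hq') _ h2
  rw [h4] at hqR
  exact hqR hq'

/-- the glueing -/
theorem glue4 (hA : RowA3) (d : Dat H τ W S X Q j fx) {q : I} (hq : q ∈ Q) {k : ℕ}
    {lam : Fin k → ℕ} (hl : lam ∈ Pt k) {b : I} (hb : ∀ p ∈ orbf τ.t (j q) q, H.Away p b) :
    ∃ z, Sp (orbf τ.t (j q) q) S H k lam b z ∧ H.deg z = k * (j q * H.deg q) + H.deg b ∧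
      W z = (∏ i ∈ Finset.range (j q), W (S ((τ.t ^ i) q) k lam)) * W b := by
  classical
  obtain ⟨z, h1, h2, h3, h4⟩ := glue H hA d.Wm (orbf τ.t (j q) q) (O_pr d hq)
    (fun p => S p k lam) (fun p hp => (d.fam p (O_pr d hq p hp)).2.only k lam hl) b hb
  refine ⟨z, ⟨h1, h2⟩, ?_, ?_⟩
  · rw [h3]
    congr 1
    unfold orbf
    rw [Finset.sum_image (orb_inj _ (d.orb q hq).2.2.2)]
    rw [Finset.sum_congr rfl (fun i _ => (d.fam _ (pr_pow (τ := τ) (d.orb q hq).1 i)).2.deg k lam hl),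
      Finset.sum_congr rfl (fun i _ => by rw [deg_pow (τ := τ) q i]), Finset.sum_const,
      Finset.card_range, smul_eq_mul]
    ring
  · rw [h4]
    congr 1
    unfold orbf
    rw [Finset.prod_image (orb_inj _ (d.orb q hq).2.2.2)]

/-- a glued element is fixed -/
theorem fixed4 (hA : RowA3) (d : Dat H τ W S X Q j fx) {q : I} (hq : q ∈ Q) {k : ℕ}
    {lam : Fin k → ℕ} (hl : lam ∈ Pt k) {b z : I} (hb : τ.t b = b)
    (hz : Sp (orbf τ.t (j q) q) S H k lam b z) : τ.t z = z := by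
  have ho := d.orb q hq
  refine pi_ext H hA fun p hp => ?_
  obtain ⟨p', rfl⟩ : ∃ p', τ.t p' = p := ⟨τ.t.symm p, Equiv.apply_symm_apply _ _⟩
  have hp' : H.Pr p' := by
    have := H510.aut_pr H (H510.inv H τ) hp
    simpa [H510.inv] using this
  rw [pi_aut H hA τ hp']
  by_cases hO : p' ∈ orbf τ.t (j q) q
  · rw [hz.1 p' hO, hz.1 _ ((orbf_step _ ho.2.1 ho.2.2.1 p').2 hO), d.tS p' hp' k lam hl]
  · rw [hz.2 p' hp' hO, hz.2 _ hp (fun h => hO ((orbf_step _ ho.2.1 ho.2.2.1 p').1 h)),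
      ← pi_aut H hA τ hp', hb]

/-- glueing of fixed elements -/
theorem gl4 (hA : RowA3) (d : Dat H τ W S X Q j fx) {q : I} (hq : q ∈ Q) {R : Finset I}
    (hR : R ⊆ Q) (hqR : q ∉ R) [DecidableEq I] {k s : ℕ} {lam : Fin k → ℕ} (hl : lam ∈ Pt k)
    {b : I} (hb : b ∈ Fn τ fx s R) :
    ∃ z, z ∈ Fn τ fx (k * (j q * H.deg q) + s) (insert q R) ∧
      Sp (orbf τ.t (j q) q) S H k lam b z ∧
      W z = (∏ i ∈ Finset.range (j q), W (S ((τ.t ^ i) q) k lam)) * W b := by
  obtain ⟨⟨hbd, hbt⟩, hbs⟩ := (mem_Fn d).1 hb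
  have hba : ∀ p ∈ orbf τ.t (j q) q, H.Away p b := by
    intro p hp
    rw [away_iff]
    intro hd
    exact disj d hq hR hqR hp (hbs p (O_pr d hq p hp) hd)
  obtain ⟨z, h1, h2, h3⟩ := glue4 hA d hq hl hba
  refine ⟨z, (mem_Fn d).2 ⟨⟨by rw [h2, hbd], fixed4 hA d hq hl hbt h1⟩, ?_⟩, h1, h3⟩
  intro p hp hd
  by_cases hO : p ∈ orbf τ.t (j q) q
  · obtain ⟨i, _, hi⟩ := (mem_orbf _).1 hO
    exact ⟨q, Finset.mem_insert_self q R, i, hi⟩
  · have h4 : Dv H p b := by
      by_contra hn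
      have h5 := pi_away H hA hp ((away_iff H).2 hn)
      rw [← h1.2 p hp hO] at h5
      exact (away_iff H).1 (away_of_pi H hA hp h5) hd
    obtain ⟨q', hq', i, hi⟩ := hbs p hp h4
    exact ⟨q', Finset.mem_insert_of_mem hq', i, hi⟩

/-- the structure of the fixed elements -/
theorem sl4 (hA : RowA3) (d : Dat H τ W S X Q j fx) {q : I} (hq : q ∈ Q) {R : Finset I}
    [DecidableEq I] {n : ℕ} {z : I} (hz : z ∈ Fn τ fx n (insert q R)) :
    ∃ k, ∃ lam ∈ Pt k, ∃ b s, b ∈ Fn τ fx s R ∧ Sp (orbf τ.t (j q) q) S H k lam b z ∧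
      n = k * (j q * H.deg q) + s ∧ H.deg (pi H q z) = k * H.deg q := by
  have ho := d.orb q hq
  obtain ⟨⟨hzd, hzt⟩, hzs⟩ := (mem_Fn d).1 hz
  obtain ⟨honly, _⟩ := pi_spec H hA ho.1 z
  obtain ⟨k, lam, hl, hk⟩ := (d.fam q ho.1).2.surj _ honly
  obtain ⟨b, hb1, hb2⟩ := peel H hA (orbf τ.t (j q) q) (O_pr d hq) z
  have hba : ∀ p ∈ orbf τ.t (j q) q, H.Away p b := fun p hp =>
    away_of_pi H hA (O_pr d hq p hp) (hb1 p hp)
  have hsp : Sp (orbf τ.t (j q) q) S H k lam b z := by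
    refine ⟨?_, fun p hp hO => (hb2 p hp hO).symm⟩
    intro p hp
    obtain ⟨i, _, rfl⟩ := (mem_orbf _).1 hp
    rw [pi_pow hA ho.1 hzt, hk, S_pow d ho.1 hl]
  have hbt : τ.t b = b := by
    refine pi_ext H hA fun p hp => ?_
    obtain ⟨p', rfl⟩ : ∃ p', τ.t p' = p := ⟨τ.t.symm p, Equiv.apply_symm_apply _ _⟩
    have hp' : H.Pr p' := by
      have := H510.aut_pr H (H510.inv H τ) hp
      simpa [H510.inv] using this
    rw [pi_aut H hA τ hp']
    by_cases hO : p' ∈ orbf τ.t (j q) q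
    · rw [hb1 p' hO, hb1 _ ((orbf_step _ ho.2.1 ho.2.2.1 p').2 hO), H510.aut_one]
    · rw [hb2 p' hp' hO, hb2 _ hp (fun h => hO ((orbf_step _ ho.2.1 ho.2.2.1 p').1 h)),
        ← pi_aut H hA τ hp', hzt]
  obtain ⟨z1, h1, h2, _⟩ := glue4 hA d hq hl hba
  have hz1 : z1 = z := h1.unique hA hsp
  rw [hz1, hzd] at h2
  refine ⟨k, lam, hl, b, H.deg b, (mem_Fn d).2 ⟨⟨rfl, hbt⟩, ?_⟩, hsp, h2, ?_⟩
  · intro p hp hd
    have hO : p ∉ orbf τ.t (j q) q := fun h => (away_iff H).1 (hba p h) hd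
    have h3 : Dv H p z := by
      by_contra hn
      have h5 := pi_away H hA hp ((away_iff H).2 hn)
      rw [← hb2 p hp hO] at h5
      exact (away_iff H).1 (away_of_pi H hA hp h5) hd
    obtain ⟨q', hq', i, hi⟩ := hzs p hp h3
    rcases Finset.mem_insert.1 hq' with h4 | h4
    · exfalso
      rw [h4] at hi
      exact hO (hi ▸ orbf_pow _ ho.2.1 ho.2.2.1 i)
    · exact ⟨q', h4, i, hi⟩
  · rw [hk, (d.fam q ho.1).2.deg k lam hl]

/-- the coefficients of one orbit -/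
noncomputable def Gc (τ : H.Aut) (W : I → ℂ) (S : I → (k : ℕ) → (Fin k → ℕ) → I) (j : I → ℕ)
    (q : I) (t : ℕ) : ℂ :=
  if j q * H.deg q ∣ t then ∑ lam ∈ Pt (t / (j q * H.deg q)),
    ∏ i ∈ Finset.range (j q), W (S ((τ.t ^ i) q) (t / (j q * H.deg q)) lam) else 0

theorem fiber (hA : RowA3) (d : Dat H τ W S X Q j fx) {q : I} (hq : q ∈ Q) {R : Finset I}
    (hR : R ⊆ Q) (hqR : q ∉ R) [DecidableEq I] (t s : ℕ) :
    ∑ z ∈ (Fn τ fx (t + s) (insert q R)).filter (fun z => j q * H.deg (pi H q z) = t), W z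
      = Gc τ W S j q t * ∑ b ∈ Fn τ fx s R, W b := by
  have ho := d.orb q hq
  have hD : 0 < j q * H.deg q := Nat.mul_pos ho.2.1 ho.1.1
  unfold Gc
  by_cases hdvd : j q * H.deg q ∣ t
  · rw [if_pos hdvd]
    obtain ⟨k, hk⟩ := hdvd
    have hk' : t / (j q * H.deg q) = k := by rw [hk, Nat.mul_div_cancel_left k hD]
    rw [hk', Finset.sum_mul_sum, ← Finset.sum_product']
    symm
    have hts : k * (j q * H.deg q) + s = t + s := by rw [hk]; ring
    refine Finset.sum_bij (fun lb hlb => (gl4 hA d hq hR hqR (Finset.mem_product.1 hlb).1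
      (Finset.mem_product.1 hlb).2).choose) ?_ ?_ ?_ ?_
    · intro lb hlb
      have hsp := (gl4 hA d hq hR hqR (Finset.mem_product.1 hlb).1
        (Finset.mem_product.1 hlb).2).choose_spec
      rw [Finset.mem_filter]
      refine ⟨by rw [← hts]; exact hsp.1, ?_⟩
      rw [hsp.2.1.1 q (self_mem_orbf _ ho.2.1 q),
        (d.fam q ho.1).2.deg k lb.1 (Finset.mem_product.1 hlb).1, hk]
      ring
    · intro lb hlb lb' hlb' he
      have hsp := (gl4 hA d hq hR hqR (Finset.mem_product.1 hlb).1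
        (Finset.mem_product.1 hlb).2).choose_spec
      have hsp' := (gl4 hA d hq hR hqR (Finset.mem_product.1 hlb').1
        (Finset.mem_product.1 hlb').2).choose_spec
      rw [he] at hsp
      have hb := (mem_Fn d).1 (Finset.mem_product.1 hlb).2
      have hb' := (mem_Fn d).1 (Finset.mem_product.1 hlb').2
      refine Prod.ext ?_ ?_
      · have h1 := hsp.2.1.1 q (self_mem_orbf _ ho.2.1 q)
        rw [hsp'.2.1.1 q (self_mem_orbf _ ho.2.1 q)] at h1
        exact ((d.fam q ho.1).2.inj k _ (Finset.mem_product.1 hlb').1 _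
          (Finset.mem_product.1 hlb).1 h1).symm
      · refine pi_ext H hA fun p hp => ?_
        by_cases hO : p ∈ orbf τ.t (j q) q
        · rw [pi_away H hA hp ((away_iff H).2 fun hd => disj d hq hR hqR hO (hb.2 p hp hd)),
            pi_away H hA hp ((away_iff H).2 fun hd => disj d hq hR hqR hO (hb'.2 p hp hd))]
        · rw [← hsp.2.1.2 p hp hO, ← hsp'.2.1.2 p hp hO]
    · intro z hz
      rw [Finset.mem_filter] at hz
      obtain ⟨k', lam, hl, b, s', hb, hsp, hn, hdg⟩ := sl4 hA d hq hz.1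
      have h1 : k' = k := by
        have h2 := hz.2
        rw [hdg, hk] at h2
        have h3 : j q * H.deg q * k' = j q * H.deg q * k := by rw [← h2]; ring
        exact Nat.eq_of_mul_eq_mul_left hD h3
      subst h1
      have h2 : s' = s := by omega
      subst h2
      have hmem : (lam, b) ∈ Pt k' ×ˢ Fn τ fx s' R := Finset.mem_product.2 ⟨hl, hb⟩
      refine ⟨(lam, b), hmem, ?_⟩
      have hsp' := (gl4 hA d hq hR hqR (Finset.mem_product.1 hmem).1
        (Finset.mem_product.1 hmem).2).choose_spec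
      exact hsp'.2.1.unique hA hsp
    · intro lb hlb
      have hsp := (gl4 hA d hq hR hqR (Finset.mem_product.1 hlb).1
        (Finset.mem_product.1 hlb).2).choose_spec
      exact hsp.2.2.symm
  · rw [if_neg hdvd, zero_mul]
    refine Finset.sum_eq_zero fun z hz => ?_
    exfalso
    rw [Finset.mem_filter] at hz
    obtain ⟨k', lam, hl, b, s', hb, hsp, hn, hdg⟩ := sl4 hA d hq hz.1
    rw [hdg] at hz
    exact hdvd ⟨k', by rw [← hz.2]; ring⟩

theorem step4 (hA : RowA3) (d : Dat H τ W S X Q j fx) {q : I} (hq : q ∈ Q) {R : Finset I}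
    (hR : R ⊆ Q) (hqR : q ∉ R) [DecidableEq I] (n : ℕ) :
    ∑ z ∈ Fn τ fx n (insert q R), W z
      = ∑ ts ∈ Finset.HasAntidiagonal.antidiagonal n, Gc τ W S j q ts.1 * ∑ b ∈ Fn τ fx ts.2 R, W b := by
  have hmap : ∀ z ∈ Fn τ fx n (insert q R),
      (j q * H.deg (pi H q z), n - j q * H.deg (pi H q z)) ∈ Finset.HasAntidiagonal.antidiagonal n := by
    intro z hz
    obtain ⟨k', lam, hl, b, s', hb, hsp, hn, hdg⟩ := sl4 hA d hq hz
    rw [Finset.HasAntidiagonal.mem_antidiagonal]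
    simp only
    have h1 : j q * H.deg (pi H q z) = k' * (j q * H.deg q) := by rw [hdg]; ring
    omega
  rw [← Finset.sum_fiberwise_of_maps_to hmap (fun z => W z)]
  refine Finset.sum_congr rfl fun ts hts => ?_
  have h1 := Finset.HasAntidiagonal.mem_antidiagonal.1 hts
  rw [← fiber hA d hq hR hqR ts.1 ts.2, h1]
  refine Finset.sum_congr ?_ fun _ _ => rfl
  refine Finset.filter_congr fun z hz => ?_
  constructor
  · intro h
    exact congrArg Prod.fst h
  · intro h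
    refine Prod.ext h ?_
    simp only
    omega

theorem rowA4_of (hA : RowA3) : RowA4 := by
  classical
  intro I H τ W N S X Q j fx hW1 hWm hfam htS horb hdis hcov hmem n hn
  have d : Dat H τ W S X Q j fx := ⟨hW1, hWm, hfam, htS, horb, hdis, hmem⟩
  have main : ∀ R : Finset I, R ⊆ Q → ∀ n, ∑ z ∈ Fn τ fx n R, W z
      = PowerSeries.coeff n (∏ q ∈ R, PowerSeries.mk (Gc τ W S j q)) := by
    intro R
    induction R using Finset.induction_on with
    | empty =>
      intro _ n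
      rw [Finset.prod_empty, PowerSeries.coeff_one]
      by_cases h0 : n = 0
      · rw [if_pos h0, h0]
        have : Fn τ fx 0 (∅ : Finset I) = {H.one} := by
          ext z
          rw [mem_Fn d, Finset.mem_singleton]
          constructor
          · intro h
            exact eq_one H h.1.1
          · intro h
            rw [h]
            exact ⟨⟨deg_one H, H510.aut_one H τ⟩, fun p hp hd => absurd hd (not_dv_one H hp)⟩
        rw [this, Finset.sum_singleton, hW1]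
      · rw [if_neg h0]
        refine Finset.sum_eq_zero fun z hz => ?_
        exfalso
        obtain ⟨⟨h1, _⟩, h3⟩ := (mem_Fn d).1 hz
        have h4 : z ≠ H.one := by
          intro h5
          rw [h5, deg_one] at h1
          exact h0 h1.symm
        obtain ⟨p, hp, hd⟩ := exists_pr H z h4
        obtain ⟨q, hq, _⟩ := h3 p hp hd
        exact absurd hq (Finset.notMem_empty q)
    | insert q R hqR ih =>
      intro hsub n
      have hq : q ∈ Q := hsub (Finset.mem_insert_self q R)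
      have hR : R ⊆ Q := fun x hx => hsub (Finset.mem_insert_of_mem hx)
      rw [step4 hA d hq hR hqR, Finset.prod_insert hqR, PowerSeries.coeff_mul]
      refine Finset.sum_congr rfl fun ts _ => ?_
      rw [PowerSeries.coeff_mk, ih hR]
  have hfin := main Q (fun _ h => h) n
  have hF : Fn τ fx n Q = fx n := by
    ext z
    rw [mem_Fn d, hmem, H.mem_lvl]
    constructor
    · intro h
      exact h.1
    · intro h
      refine ⟨h, fun p hp hd => hcov p hp ?_⟩
      have := dv_deg H hd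
      omega
  rw [hF] at hfin
  exact hfin

end Vale.Agent.P275.H677.A4

namespace Vale.Agent.P275.H677

theorem rowA4 (hA : Vale.Agent.P275.H341.RowA3) : Vale.Agent.P275.H341.RowA4 := A4.rowA4_of hA

end Vale.Agent.P275.H677
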