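import Vale.Agent.P275.H341.Psh

/-!
# Row A9: the logarithmic derivative of the partition series
-/

namespace Vale.Agent.P275.H677.A9

open scoped BigOperators
open Vale.Agent.P275.H341

theorem mem_Pt {k : ℕ} {f : Fin k → ℕ} : f ∈ Pt k ↔ ∑ i, f i = k ∧ Antitone f := by
  unfold Pt
  rw [Finset.mem_filter, Finset.Nat.mem_antidiagonalTuple]
  rfl

theorem ms_eq {k : ℕ} {f g : Fin k → ℕ}
    (h : (Finset.univ.val.map f).filter (· ≠ 0) = (Finset.univ.val.map g).filter (· ≠ 0)) :
    (Finset.univ.val.map f) = (Finset.univ.val.map g) := by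
  have h1 := Multiset.filter_add_not (· ≠ 0) (Finset.univ.val.map f)
  have h2 := Multiset.filter_add_not (· ≠ 0) (Finset.univ.val.map g)
  have e : ∀ s : Multiset ℕ, s.filter (fun a => ¬ (a ≠ 0)) = Multiset.replicate (s.count 0) 0 := by
    intro s
    rw [← Multiset.filter_eq' s 0]
    refine Multiset.filter_congr fun x _ => ?_
    simp
  rw [e] at h1 h2
  have c1 := congrArg Multiset.card h1
  have c2 := congrArg Multiset.card h2
  rw [Multiset.card_add, Multiset.card_replicate, Multiset.card_map] at c1 c2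
  rw [h] at c1
  have c3 : (Finset.univ.val.map f).count 0 = (Finset.univ.val.map g).count 0 := by omega
  rw [← h1, ← h2, h, c3]

theorem card_Pt (k : ℕ) : (Pt k).card = Fintype.card (Nat.Partition k) := by
  rw [← Finset.card_univ]
  refine Finset.card_bij (fun f hf => Nat.Partition.ofSums k (Finset.univ.val.map f)
    (by exact (mem_Pt.1 hf).1)) ?_ ?_ ?_
  · intro f hf
    exact Finset.mem_univ _
  · intro f hf g hg h
    have h1 := congrArg Nat.Partition.parts h
    have h2 := ms_eq h1
    rw [Fin.univ_val_map, Fin.univ_val_map, Multiset.coe_eq_coe] at h2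
    exact List.ofFn_injective (h2.eq_of_pairwise' (mem_Pt.1 hf).2.sortedGE_ofFn.pairwise
      (mem_Pt.1 hg).2.sortedGE_ofFn.pairwise)
  · intro p _
    have hcard : p.parts.card ≤ k := by
      have h1 : p.parts.card • 1 ≤ p.parts.sum :=
        Multiset.card_nsmul_le_sum (fun x hx => p.parts_pos hx)
      rw [p.parts_sum] at h1
      simpa using h1
    obtain ⟨l, hl⟩ : ∃ l : List ℕ,
        l = p.parts.sort (· ≥ ·) ++ List.replicate (k - p.parts.card) 0 := ⟨_, rfl⟩
    have hlen : l.length = k := by
      rw [hl, List.length_append, Multiset.length_sort, List.length_replicate]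
      omega
    have hpw : l.Pairwise (· ≥ ·) := by
      rw [hl, List.pairwise_append]
      refine ⟨Multiset.pairwise_sort _ _, ?_, ?_⟩
      · rw [List.pairwise_replicate]
        right
        exact le_refl _
      · intro a _ b hb
        rw [List.eq_of_mem_replicate hb]
        exact Nat.zero_le _
    obtain ⟨f, hf⟩ : ∃ f : Fin k → ℕ, List.ofFn f = l := by
      subst hlen
      exact ⟨l.get, List.ofFn_get l⟩
    have hms : (Finset.univ.val.map f) = p.parts + Multiset.replicate (k - p.parts.card) 0 := by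
      rw [Fin.univ_val_map, hf, hl, ← Multiset.coe_add, Multiset.sort_eq, Multiset.coe_replicate]
    have hsum : ∑ i, f i = k := by
      show (Finset.univ.val.map f).sum = k
      rw [hms, Multiset.sum_add, p.parts_sum, Multiset.sum_replicate, smul_zero, add_zero]
    have hanti : Antitone f := by
      rw [← List.sortedGE_ofFn_iff, hf]
      exact hpw.sortedGE
    refine ⟨f, mem_Pt.2 ⟨hsum, hanti⟩, ?_⟩
    apply Nat.Partition.ext
    show (Finset.univ.val.map f).filter (· ≠ 0) = p.parts
    rw [hms, Multiset.filter_add]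
    have h1 : (Multiset.replicate (k - p.parts.card) 0).filter (· ≠ 0) = 0 := by
      rw [Multiset.filter_eq_nil]
      intro a ha
      rw [Multiset.eq_of_mem_replicate ha]
      simp
    rw [h1, add_zero, Multiset.filter_eq_self]
    intro a ha
    exact (p.parts_pos ha).ne'

/-- the number of partitions -/
noncomputable def pn (n : ℕ) : ℕ := Fintype.card (Nat.Partition n)

/-- the total number of the parts equal to `a` -/
noncomputable def cn (n a : ℕ) : ℕ := ∑ p : Nat.Partition n, p.parts.count a

theorem cn_small {n a : ℕ} (h : n < a) : cn n a = 0 := by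
  unfold cn
  refine Finset.sum_eq_zero fun p _ => ?_
  rw [Multiset.count_eq_zero]
  intro hm
  have := Nat.Partition.le_of_mem_parts hm
  omega

theorem cn_step {n a : ℕ} (ha : 1 ≤ a) (h : a ≤ n) : cn n a = cn (n - a) a + pn (n - a) := by
  classical
  unfold cn pn
  have h1 : ∑ p : Nat.Partition n, p.parts.count a
      = ∑ p : {p : n.Partition // a ∈ p.parts}, p.1.parts.count a := by
    rw [← Finset.sum_subtype (Finset.univ.filter fun p : n.Partition => a ∈ p.parts)
      (fun x => by simp) (fun p => p.parts.count a)]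
    refine (Finset.sum_filter_of_ne fun p _ hp => ?_).symm
    by_contra h0
    exact hp (Multiset.count_eq_zero.2 h0)
  rw [h1, ← (Nat.Partition.partitionWithPartEquiv ha h).symm.sum_comp, ← Finset.card_univ,
    Finset.card_eq_sum_ones, ← Finset.sum_add_distrib]
  refine Finset.sum_congr rfl fun q _ => ?_
  rw [Nat.Partition.partitionWithPartEquiv_symm_apply_parts, Multiset.count_cons_self]

theorem cn_eq {a : ℕ} (ha : 1 ≤ a) (n : ℕ) :
    cn n a = ∑ i ∈ Finset.range (n + 1), (if a ∣ i ∧ i ≠ 0 then pn (n - i) else 0) := by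
  induction n using Nat.strong_induction_on with
  | _ n ih =>
    rcases Nat.lt_or_ge n a with h | h
    · rw [cn_small h]
      symm
      refine Finset.sum_eq_zero fun i hi => if_neg ?_
      rintro ⟨h1, h2⟩
      have h3 := Nat.le_of_dvd (Nat.pos_of_ne_zero h2) h1
      have h4 := Finset.mem_range.1 hi
      omega
    · obtain ⟨m, rfl⟩ : ∃ m, n = a + m := ⟨n - a, by omega⟩
      rw [cn_step ha h, add_assoc, Finset.sum_range_add]
      have h1 : ∑ x ∈ Finset.range a, (if a ∣ x ∧ x ≠ 0 then pn (a + m - x) else 0) = 0 := by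
        refine Finset.sum_eq_zero fun i hi => if_neg ?_
        rintro ⟨h1, h2⟩
        have h3 := Nat.le_of_dvd (Nat.pos_of_ne_zero h2) h1
        have h4 := Finset.mem_range.1 hi
        omega
      rw [h1, zero_add, Nat.add_sub_cancel_left, ih m (by omega)]
      rw [Finset.sum_range_succ' , Finset.sum_range_succ' (fun x => if a ∣ a + x ∧ a + x ≠ 0 then
        pn (a + m - (a + x)) else 0)]
      rw [if_neg (by simp), add_zero, add_zero, if_pos ⟨dvd_refl a, by omega⟩,
        Nat.add_sub_cancel_left]
      congr 1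
      refine Finset.sum_congr rfl fun x _ => ?_
      have h2 : (a ∣ x + 1 ∧ x + 1 ≠ 0) ↔ (a ∣ a + (x + 1) ∧ a + (x + 1) ≠ 0) := by
        constructor
        · rintro ⟨h3, _⟩
          exact ⟨(Nat.dvd_add_right (dvd_refl a)).2 h3, by omega⟩
        · rintro ⟨h3, _⟩
          exact ⟨(Nat.dvd_add_right (dvd_refl a)).1 h3, by omega⟩
      rw [if_congr h2 (congrArg pn (show m - (x + 1) = a + m - (a + (x + 1)) by omega)) rfl]

theorem rec_pn (n : ℕ) :
    n * pn n = ∑ i ∈ Finset.range (n + 1), (∑ d ∈ i.divisors, d) * pn (n - i) := by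
  have h1 : n * pn n = ∑ a ∈ Finset.Icc 1 n, a * cn n a := by
    have h2 : n * pn n = ∑ p : Nat.Partition n, p.parts.sum := by
      rw [Finset.sum_congr rfl (fun p _ => p.parts_sum), Finset.sum_const, Finset.card_univ,
        smul_eq_mul, mul_comm]
      rfl
    have h3 : ∀ p : Nat.Partition n, p.parts.sum = ∑ a ∈ Finset.Icc 1 n, p.parts.count a • a := by
      intro p
      refine Finset.sum_multiset_count_of_subset _ _ fun a ha => ?_
      rw [Multiset.mem_toFinset] at ha
      exact Finset.mem_Icc.2 ⟨p.parts_pos ha, Nat.Partition.le_of_mem_parts ha⟩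
    rw [h2, Finset.sum_congr rfl (fun p _ => h3 p), Finset.sum_comm]
    refine Finset.sum_congr rfl fun a _ => ?_
    unfold cn
    rw [Finset.mul_sum]
    refine Finset.sum_congr rfl fun p _ => ?_
    rw [smul_eq_mul, mul_comm]
  rw [h1]
  have h2 : ∀ a ∈ Finset.Icc 1 n, a * cn n a
      = ∑ i ∈ Finset.range (n + 1), (if a ∣ i ∧ i ≠ 0 then a * pn (n - i) else 0) := by
    intro a ha
    rw [cn_eq (Finset.mem_Icc.1 ha).1, Finset.mul_sum]
    refine Finset.sum_congr rfl fun i _ => ?_
    split_ifs
    · rfl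
    · rfl
  rw [Finset.sum_congr rfl h2, Finset.sum_comm]
  refine Finset.sum_congr rfl fun i hi => ?_
  rw [← Finset.sum_filter, Finset.sum_mul]
  refine Finset.sum_congr ?_ fun _ _ => rfl
  ext a
  rw [Finset.mem_filter, Finset.mem_Icc, Nat.mem_divisors]
  constructor
  · rintro ⟨_, h⟩
    exact h
  · intro h
    have h3 := Nat.le_of_dvd (Nat.pos_of_ne_zero h.2) h.1
    have h4 := Finset.mem_range.1 hi
    have h5 : 0 < a := Nat.pos_of_dvd_of_pos h.1 (Nat.pos_of_ne_zero h.2)
    exact ⟨⟨h5, by omega⟩, h⟩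

theorem series_eq : PowerSeries.X * PowerSeries.derivative ℂ
      (PowerSeries.mk fun t => ((Pt t).card : ℂ))
    = (PowerSeries.mk fun k => ∑ d ∈ k.divisors, (d : ℂ)) *
      (PowerSeries.mk fun t => ((Pt t).card : ℂ)) := by
  ext n
  simp only [card_Pt]
  have h1 := congrArg (fun t : ℕ => (t : ℂ)) (rec_pn n)
  simp only [Nat.cast_mul, Nat.cast_sum] at h1
  have h2 : PowerSeries.coeff n (PowerSeries.X * PowerSeries.derivative ℂ
      (PowerSeries.mk fun t => ((Fintype.card (Nat.Partition t) : ℕ) : ℂ))) = (n : ℂ) * (pn n : ℂ) := by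
    rcases n with _ | n
    · rw [PowerSeries.coeff_zero_X_mul, Nat.cast_zero, zero_mul]
    · rw [PowerSeries.coeff_succ_X_mul, PowerSeries.coeff_derivative, PowerSeries.coeff_mk]
      unfold pn
      push_cast
      ring
  rw [h2, h1, PowerSeries.coeff_mul, Finset.Nat.sum_antidiagonal_eq_sum_range_succ_mk]
  refine Finset.sum_congr rfl fun i _ => ?_
  rw [PowerSeries.coeff_mk, PowerSeries.coeff_mk]
  rfl

theorem rowA9 : RowA9 := by
  intro k _
  unfold ld
  rw [series_eq, mul_assoc, PowerSeries.mul_inv_cancel, mul_one, PowerSeries.coeff_mk]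
  rw [← PowerSeries.coeff_zero_eq_constantCoeff_apply, PowerSeries.coeff_mk, card_Pt]
  have h : Fintype.card (Nat.Partition 0) = 1 := by
    rw [Fintype.card_eq_one_iff_nonempty_unique]
    exact ⟨inferInstance⟩
  rw [h]
  norm_num

end Vale.Agent.P275.H677.A9

namespace Vale.Agent.P275.H677

theorem rowA9 : Vale.Agent.P275.H341.RowA9 := A9.rowA9

end Vale.Agent.P275.H677
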