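import Vale.Agent.P275.H341.Rows5
import Vale.Agent.P275.H495.SqB0

/-!
# The twisted Frobenius formula with a shift (row E8)
-/

set_option linter.style.haveILetI false
set_option linter.unusedSectionVars false

namespace Vale.Agent.P275.H677.E8

open scoped BigOperators MatrixGroups
open Module Matrix Vale.Agent.P275.H85 Vale.Agent.P275.H341

variable {G : Type} [Group G] [Fintype G]

theorem cG : (Fintype.card G : ℂ) ≠ 0 := by exact_mod_cast Fintype.card_ne_zero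

theorem irr_one_ne' {χ : G → ℂ} (h : IsIrrChar χ) : χ 1 ≠ 0 := by
  obtain ⟨π, rfl⟩ := h
  rw [π.χ_one]
  exact_mod_cast π.dim_pos.ne'

/-- composition with an automorphism -/
theorem irr_comp (φ : G ≃* G) {χ : G → ℂ} (h : IsIrrChar χ) : IsIrrChar (fun g => χ (φ g)) := by
  have h1 := ip_irr h h
  rw [if_pos rfl] at h1
  obtain ⟨π, rfl⟩ := h
  let ρ' : Representation ℂ G π.V := π.ρ.comp φ.toMonoidHom
  have hρ : (fun g => π.χ (φ g)) = ρ'.character := rfl
  rw [hρ]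
  apply Pos.irr_of_norm_one
  · refine ⟨fun g h => ρ'.char_conj g h, ?_⟩
    rintro χ ⟨σ, rfl⟩
    exact ⟨_, ip_character_nat σ.ρ ρ'⟩
  · rw [← hρ, ← h1]
    unfold ip
    congr 1
    rw [← Equiv.sum_comp φ.toEquiv (fun x => π.χ x * π.χ x⁻¹)]
    apply Finset.sum_congr rfl
    intro x _
    show π.χ (φ x) * π.χ (φ x⁻¹) = π.χ (φ x) * π.χ (φ x)⁻¹
    rw [map_inv]

/-- averaging over conjugates -/
theorem sum_conj_char {χ : G → ℂ} (h : IsIrrChar χ) (x y : G) :
    ∑ a, χ (x * (a * y * a⁻¹)) = (Fintype.card G : ℂ) * (χ x * χ y) / χ 1 := by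
  obtain ⟨π, rfl⟩ := h
  have h1 := π.sum_conj (π.ρ y)
  have h2 : ∑ a, π.χ (x * (a * y * a⁻¹))
      = LinearMap.trace ℂ π.V (π.ρ x * ∑ a, π.ρ a * π.ρ y * π.ρ a⁻¹) := by
    rw [Finset.mul_sum, map_sum]
    apply Finset.sum_congr rfl
    intro a _
    have h3 : π.ρ (x * (a * y * a⁻¹)) = π.ρ x * (π.ρ a * π.ρ y * π.ρ a⁻¹) := by
      rw [map_mul, map_mul, map_mul]
    show LinearMap.trace ℂ π.V (π.ρ (x * (a * y * a⁻¹))) = _
    rw [h3]
  rw [h2, h1, mul_smul_comm, mul_one, map_smul, smul_eq_mul, π.χ_one]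
  unfold Irr.χ Representation.character
  ring

theorem central_mul {χ : G → ℂ} (h : IsIrrChar χ) {z : G} (hz : ∀ g, z * g = g * z) (x : G) :
    χ (x * z) = χ x * (χ z / χ 1) := by
  have h1 := sum_conj_char h x z
  have h2 : ∀ a : G, a * z * a⁻¹ = z := by
    intro a
    rw [← hz a, mul_assoc, mul_inv_cancel, mul_one]
  simp only [h2, Finset.sum_const, Finset.card_univ, nsmul_eq_mul] at h1
  have h3 := irr_one_ne' h
  have h4 := cG (G := G)
  have h5 : (Fintype.card G : ℂ) * χ (x * z) = (Fintype.card G : ℂ) * (χ x * (χ z / χ 1)) := by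
    rw [h1]
    ring
  exact mul_left_cancel₀ h4 h5

theorem central_pow {χ : G → ℂ} (h : IsIrrChar χ) {z : G} (hz : ∀ g, z * g = g * z) (e : ℕ) :
    χ (z ^ e) / χ 1 = (χ z / χ 1) ^ e := by
  induction e with
  | zero => rw [pow_zero, pow_zero, div_self (irr_one_ne' h)]
  | succ e ih =>
    rw [pow_succ, central_mul h hz, pow_succ, ← ih]
    ring

open scoped Classical in
/-- the number of solutions of a product of commutators -/
noncomputable def cnt (h : ℕ) (x : G) : ℂ :=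
  ∑ A : Fin h → G, ∑ B : Fin h → G,
    if (List.ofFn fun i => A i * B i * (A i)⁻¹ * (B i)⁻¹).prod = x then 1 else 0

theorem cnt_eq (h : ℕ) (x : G) :
    cnt h x = ∑ χ ∈ irrSet G, ((Fintype.card G : ℂ)⁻¹ * (((Fintype.card G : ℂ) / χ 1) ^ (2 * h) *
      χ 1)) * χ x := by
  classical
  have h1 := pkgA2 G h (fun _ => 1) (fun _ => 1) 1 (fun _ => ⟨0, rfl⟩) (fun _ => ⟨0, rfl⟩)
    (one_mem _) x
  have h2 : (irrSet G).filter (fun χ => ∀ g, (((1 : G →* ℂˣ) g : ℂˣ) : ℂ) * χ g = χ g)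
      = irrSet G := by
    apply Finset.filter_true_of_mem
    intro χ _ g
    rw [MonoidHom.one_apply, Units.val_one, one_mul]
  rw [h2] at h1
  have h3 : cnt h x = ∑ A : Fin h → G, ∑ B : Fin h → G,
      if (List.ofFn fun i => A i * B i * (A i)⁻¹ * (B i)⁻¹).prod = x then
        ∏ i : Fin h, ((((1 : G →* ℂˣ) (A i)) : ℂˣ) : ℂ) * ((((1 : G →* ℂˣ) (B i)) : ℂˣ) : ℂ)
      else 0 := by
    unfold cnt
    simp only [MonoidHom.one_apply, Units.val_one, mul_one, Finset.prod_const_one]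
  rw [h3]
  have h4 : (∑ A : Fin h → G, ∑ B : Fin h → G,
      if (List.ofFn fun i => A i * B i * (A i)⁻¹ * (B i)⁻¹).prod = x then
        ∏ i : Fin h, ((((1 : G →* ℂˣ) (A i)) : ℂˣ) : ℂ) * ((((1 : G →* ℂˣ) (B i)) : ℂˣ) : ℂ)
      else 0) = (Fintype.card G : ℂ)⁻¹ * ∑ χ ∈ irrSet G,
        ((Fintype.card G : ℂ) / χ 1) ^ (2 * h) * χ 1 * χ x⁻¹ := h1
  rw [h4, Finset.mul_sum]
  refine Finset.sum_bij' (fun χ _ => fun g => χ g⁻¹) (fun χ _ => fun g => χ g⁻¹) ?_ ?_ ?_ ?_ ?_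
  · intro χ hχ
    exact mem_irrSet.mpr (H495.irr_dual (mem_irrSet.mp hχ))
  · intro χ hχ
    exact mem_irrSet.mpr (H495.irr_dual (mem_irrSet.mp hχ))
  · intro χ _
    funext g
    beta_reduce
    rw [inv_inv]
  · intro χ _
    funext g
    beta_reduce
    rw [inv_inv]
  · intro χ _
    beta_reduce
    rw [_root_.inv_one]
    ring

open scoped Classical in
/-- the kernel of one handle -/
noncomputable def ker (h : ℕ) (z x y : G) : ℂ :=
  ∑ a : G, ∑ A : Fin h → G, ∑ B : Fin h → G,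
    if a * y * a⁻¹ * x⁻¹ * (List.ofFn fun i => A i * B i * (A i)⁻¹ * (B i)⁻¹).prod = z then 1 else 0

theorem ker_eq (h : ℕ) {z : G} (hz : ∀ g, z * g = g * z) (x y : G) :
    ker h z x y = ∑ χ ∈ irrSet G,
      (((Fintype.card G : ℂ) / χ 1) ^ (2 * h) * (χ z / χ 1)) * (χ x * χ y⁻¹) := by
  classical
  have h1 : ker h z x y = ∑ a : G, cnt h (x * (a * y⁻¹ * a⁻¹) * z) := by
    unfold ker cnt
    apply Finset.sum_congr rfl
    intro a _
    apply Finset.sum_congr rfl
    intro A _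
    apply Finset.sum_congr rfl
    intro B _
    apply if_congr _ rfl rfl
    set P := (List.ofFn fun i => A i * B i * (A i)⁻¹ * (B i)⁻¹).prod
    constructor
    · intro hP
      rw [← hP]
      group
    · intro hP
      rw [hP]
      group
  rw [h1]
  simp only [cnt_eq]
  rw [Finset.sum_comm]
  apply Finset.sum_congr rfl
  intro χ hχ
  have hχ' := mem_irrSet.mp hχ
  rw [← Finset.mul_sum]
  have h2 : ∑ a : G, χ (x * (a * y⁻¹ * a⁻¹) * z)
      = ((Fintype.card G : ℂ) * (χ x * χ y⁻¹) / χ 1) * (χ z / χ 1) := by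
    rw [← sum_conj_char hχ', Finset.sum_mul]
    apply Finset.sum_congr rfl
    intro a _
    exact central_mul hχ' hz _
  rw [h2]
  have h3 := irr_one_ne' hχ'
  have h4 := cG (G := G)
  field_simp

/-- the weighted kernel as a matrix -/
noncomputable def kerM (h : ℕ) (η : G →* ℂˣ) (z : G) : Matrix G G ℂ :=
  Matrix.of fun x y => ((η x : ℂˣ) : ℂ) * ker h z x y

theorem kerM_pow [DecidableEq G] (h : ℕ) (η : G →* ℂˣ) {z : G} (hz : ∀ g, z * g = g * z) (e : ℕ) (x y : G) :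
    (kerM h η z ^ (e + 1)) x y = (Fintype.card G : ℂ) ^ e * ∑ χ ∈ irrSet G,
      (((η z : ℂˣ) : ℂ) ^ ((e + 1) * e / 2) *
        (((Fintype.card G : ℂ) / χ 1) ^ (2 * h) * (χ z / χ 1)) ^ (e + 1)) *
        ((((η x : ℂˣ) : ℂ) ^ (e + 1) * χ x) * χ y⁻¹) := by
  classical
  induction e generalizing x y with
  | zero =>
    rw [zero_add, pow_one, pow_zero, one_mul]
    show ((η x : ℂˣ) : ℂ) * ker h z x y = _
    rw [ker_eq h hz, Finset.mul_sum]
    apply Finset.sum_congr rfl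
    intro χ _
    simp only [pow_one, mul_zero, Nat.zero_div, pow_zero]
    ring
  | succ e ih =>
    rw [pow_succ', Matrix.mul_apply]
    simp only [ih]
    have h0 : ∀ u : G, kerM h η z x u = ∑ χ' ∈ irrSet G, ((η x : ℂˣ) : ℂ) *
      ((((Fintype.card G : ℂ) / χ' 1) ^ (2 * h) * (χ' z / χ' 1)) * (χ' x * χ' u⁻¹)) := by
      intro u
      show ((η x : ℂˣ) : ℂ) * ker h z x u = _
      rw [ker_eq h hz, Finset.mul_sum]
    simp only [h0]
    -- the sum over the intermediate point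
    have key : ∀ χ ∈ irrSet G, ∑ u : G, (∑ χ' ∈ irrSet G, ((η x : ℂˣ) : ℂ) *
        ((((Fintype.card G : ℂ) / χ' 1) ^ (2 * h) * (χ' z / χ' 1)) * (χ' x * χ' u⁻¹))) *
          (((η u : ℂˣ) : ℂ) ^ (e + 1) * χ u)
        = (Fintype.card G : ℂ) * (((η x : ℂˣ) : ℂ) *
          ((((Fintype.card G : ℂ) / χ 1) ^ (2 * h) * (((η z : ℂˣ) : ℂ) ^ (e + 1) * (χ z / χ 1))) *
            (((η x : ℂˣ) : ℂ) ^ (e + 1) * χ x))) := by
      intro χ hχ
      have hχ' := mem_irrSet.mp hχ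
      have hη := irr_twist (η ^ (e + 1)) hχ'
      have hηf : (fun g => (((η ^ (e + 1)) g : ℂˣ) : ℂ) * χ g)
          = fun g => ((η g : ℂˣ) : ℂ) ^ (e + 1) * χ g := by
        funext g
        rw [MonoidHom.pow_apply, Units.val_pow_eq_pow_val]
      rw [hηf] at hη
      simp only [Finset.sum_mul]
      rw [Finset.sum_comm]
      rw [Finset.sum_eq_single_of_mem (fun g => ((η g : ℂˣ) : ℂ) ^ (e + 1) * χ g)
        (mem_irrSet.mpr hη)]
      · have h1 := ip_irr hη hη
        rw [if_pos rfl] at h1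
        unfold ip at h1
        have h2 : ∑ u : G, ((η u : ℂˣ) : ℂ) ^ (e + 1) * χ u *
            (((η u⁻¹ : ℂˣ) : ℂ) ^ (e + 1) * χ u⁻¹) = (Fintype.card G : ℂ) := by
          have h3 := cG (G := G)
          field_simp at h1
          rw [← h1]
          apply Finset.sum_congr rfl
          intro u _
          ring
        rw [← h2, Finset.sum_mul]
        apply Finset.sum_congr rfl
        intro u _
        simp only [map_one, Units.val_one, one_pow, one_mul]
        ring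
      · intro χ' hχ'' hne
        have h1 := ip_irr hη (mem_irrSet.mp hχ'')
        rw [if_neg (fun h => hne h.symm)] at h1
        unfold ip at h1
        have h2 : ∑ u : G, ((η u : ℂˣ) : ℂ) ^ (e + 1) * χ u * χ' u⁻¹ = 0 := by
          have h3 := cG (G := G)
          exact (mul_eq_zero.mp h1).resolve_left (inv_ne_zero h3)
        have h4 : ∀ u : G, ((η x : ℂˣ) : ℂ) *
          ((((Fintype.card G : ℂ) / χ' 1) ^ (2 * h) * (χ' z / χ' 1)) * (χ' x * χ' u⁻¹)) *
            (((η u : ℂˣ) : ℂ) ^ (e + 1) * χ u)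
            = (((η x : ℂˣ) : ℂ) *
          ((((Fintype.card G : ℂ) / χ' 1) ^ (2 * h) * (χ' z / χ' 1)) * χ' x)) *
            (((η u : ℂˣ) : ℂ) ^ (e + 1) * χ u * χ' u⁻¹) := by
          intro u
          ring
        rw [Finset.sum_congr rfl fun u _ => h4 u, ← Finset.mul_sum, h2, mul_zero]
    have h5 : ∀ u : G, (∑ χ' ∈ irrSet G, ((η x : ℂˣ) : ℂ) *
        ((((Fintype.card G : ℂ) / χ' 1) ^ (2 * h) * (χ' z / χ' 1)) * (χ' x * χ' u⁻¹))) *
        ((Fintype.card G : ℂ) ^ e * ∑ χ ∈ irrSet G,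
      (((η z : ℂˣ) : ℂ) ^ ((e + 1) * e / 2) *
        (((Fintype.card G : ℂ) / χ 1) ^ (2 * h) * (χ z / χ 1)) ^ (e + 1)) *
        ((((η u : ℂˣ) : ℂ) ^ (e + 1) * χ u) * χ y⁻¹))
        = ∑ χ ∈ irrSet G, ((Fintype.card G : ℂ) ^ e * ((((η z : ℂˣ) : ℂ) ^ ((e + 1) * e / 2) *
        (((Fintype.card G : ℂ) / χ 1) ^ (2 * h) * (χ z / χ 1)) ^ (e + 1)) * χ y⁻¹)) *
          ((∑ χ' ∈ irrSet G, ((η x : ℂˣ) : ℂ) *
        ((((Fintype.card G : ℂ) / χ' 1) ^ (2 * h) * (χ' z / χ' 1)) * (χ' x * χ' u⁻¹))) *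
          (((η u : ℂˣ) : ℂ) ^ (e + 1) * χ u)) := by
      intro u
      rw [Finset.mul_sum, Finset.mul_sum]
      apply Finset.sum_congr rfl
      intro χ _
      ring
    rw [Finset.sum_congr rfl fun u _ => h5 u, Finset.sum_comm, Finset.mul_sum]
    apply Finset.sum_congr rfl
    intro χ hχ
    rw [← Finset.mul_sum, key χ hχ]
    have h6 : (e + 1 + 1) * (e + 1) / 2 = (e + 1) * e / 2 + (e + 1) := by
      have : (e + 1 + 1) * (e + 1) = (e + 1) * e + (e + 1) * 2 := by ring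
      rw [this, Nat.add_mul_div_right _ _ (by norm_num)]
    rw [h6, pow_add (((η z : ℂˣ) : ℂ)), pow_succ (_ * (χ z / χ 1)) (e + 1)]
    ring

/-- the sum over the paths -/
theorem paths [DecidableEq G] (L : Matrix G G ℂ) (n : ℕ) (x y : G) :
    ∑ b : Fin n → G, ∏ k : Fin (n + 1),
      L ((Fin.cons x b : Fin (n + 1) → G) k) ((Fin.snoc b y : Fin (n + 1) → G) k)
      = (L ^ (n + 1)) x y := by
  induction n generalizing x y with
  | zero =>
    simp [Fin.snoc]
  | succ n ih =>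
    rw [pow_succ', Matrix.mul_apply]
    rw [← Equiv.sum_comp (Fin.consEquiv fun _ : Fin (n + 1) => G), Fintype.sum_prod_type]
    apply Finset.sum_congr rfl
    intro x' _
    rw [← ih, Finset.mul_sum]
    apply Finset.sum_congr rfl
    intro b _
    rw [Fin.prod_univ_succ]
    have h1 : (Fin.consEquiv fun _ : Fin (n + 1) => G) (x', b) = Fin.cons x' b := rfl
    have h2 : (Fin.snoc (Fin.cons x' b : Fin (n + 1) → G) y : Fin (n + 2) → G)
        = Fin.cons x' (Fin.snoc b y : Fin (n + 1) → G) :=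
      (Fin.cons_snoc_eq_snoc_cons x' b y).symm
    rw [h1, h2]
    rfl


theorem sum_fun {ι X : Type} [Fintype ι] [DecidableEq ι] [Fintype X] (f : ι → X → ℂ) :
    ∑ p : ι → X, ∏ i, f i (p i) = ∏ i, ∑ x, f i x := by
  rw [Finset.prod_univ_sum, Fintype.piFinset_univ]

theorem prod_comp {e h : ℕ} (A B : Fin h → Fin e → G) (k : Fin e) :
    (List.ofFn fun i => A i * B i * (A i)⁻¹ * (B i)⁻¹).prod k
      = (List.ofFn fun i => A i k * B i k * (A i k)⁻¹ * (B i k)⁻¹).prod := by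
  have h1 := Pi.list_prod_apply k (List.ofFn fun i => A i * B i * (A i)⁻¹ * (B i)⁻¹)
  rw [h1, List.map_ofFn]
  rfl

open scoped Classical in
/-- the sum over the handles for fixed `a`, `b` -/
theorem handles (e h : ℕ) (c : Fin e → G) (z : G) :
    (∑ A : Fin h → Fin e → G, ∑ B : Fin h → Fin e → G,
      if c * (List.ofFn fun i => A i * B i * (A i)⁻¹ * (B i)⁻¹).prod = fun _ => z then (1 : ℂ)
      else 0)
    = ∏ k : Fin e, ∑ A : Fin h → G, ∑ B : Fin h → G,
      if c k * (List.ofFn fun i => A i * B i * (A i)⁻¹ * (B i)⁻¹).prod = z then 1 else 0 := by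
  have h1 : ∀ A : Fin e → Fin h → G, ∑ B : Fin e → Fin h → G, ∏ k : Fin e,
      (if c k * (List.ofFn fun i => A k i * B k i * (A k i)⁻¹ * (B k i)⁻¹).prod = z then (1 : ℂ)
        else 0)
      = ∏ k : Fin e, ∑ B : Fin h → G,
      (if c k * (List.ofFn fun i => A k i * B i * (A k i)⁻¹ * (B i)⁻¹).prod = z then (1 : ℂ)
        else 0) :=
    fun A => sum_fun fun k (B : Fin h → G) =>
      (if c k * (List.ofFn fun i => A k i * B i * (A k i)⁻¹ * (B i)⁻¹).prod = z then (1 : ℂ)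
        else 0)
  have h2 := sum_fun fun (k : Fin e) (A : Fin h → G) => ∑ B : Fin h → G,
      (if c k * (List.ofFn fun i => A i * B i * (A i)⁻¹ * (B i)⁻¹).prod = z then (1 : ℂ)
        else 0)
  rw [← h2]
  rw [← Equiv.sum_comp (Equiv.piComm fun (_ : Fin e) (_ : Fin h) => G)]
  apply Finset.sum_congr rfl
  intro A _
  rw [← h1 A]
  rw [← Equiv.sum_comp (Equiv.piComm fun (_ : Fin e) (_ : Fin h) => G)]
  apply Finset.sum_congr rfl
  intro B _
  have h3 : (c * (List.ofFn fun i => (Equiv.piComm fun (_ : Fin e) (_ : Fin h) => G) A i *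
      (Equiv.piComm fun (_ : Fin e) (_ : Fin h) => G) B i *
      ((Equiv.piComm fun (_ : Fin e) (_ : Fin h) => G) A i)⁻¹ *
      ((Equiv.piComm fun (_ : Fin e) (_ : Fin h) => G) B i)⁻¹).prod = fun _ => z)
      ↔ ∀ k : Fin e, c k * (List.ofFn fun i => A k i * B k i * (A k i)⁻¹ * (B k i)⁻¹).prod = z := by
    rw [funext_iff]
    apply forall_congr'
    intro k
    rw [Pi.mul_apply, prod_comp]
    rfl
  rw [if_congr h3 rfl rfl]
  by_cases hk : ∀ k : Fin e,
      c k * (List.ofFn fun i => A k i * B k i * (A k i)⁻¹ * (B k i)⁻¹).prod = z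
  · rw [if_pos hk]
    symm
    apply Finset.prod_eq_one
    intro k _
    rw [if_pos (hk k)]
  · rw [if_neg hk]
    push Not at hk
    obtain ⟨k, hk⟩ := hk
    symm
    exact Finset.prod_eq_zero (Finset.mem_univ k) (if_neg hk)

theorem shf_cons {n : ℕ} (φ : G → G) (x : G) (b : Fin n → G) :
    shf φ (Fin.cons x b : Fin (n + 1) → G) = (Fin.snoc b (φ x) : Fin (n + 1) → G) := by
  funext i
  unfold shf
  induction i using Fin.lastCases with
  | last =>
    rw [Fin.snoc_last, dif_neg (by simp)]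
    rfl
  | cast i =>
    rw [Fin.snoc_castSucc, dif_pos (by simp)]
    rfl

/-- **Row E8** -/
theorem rowE8 : RowE8 := by
  classical
  intro G _ _ φ η z e h he _ hz _
  obtain ⟨n, rfl⟩ : ∃ n, e = n + 1 := ⟨e - 1, by omega⟩
  have step1 : (∑ a : Fin (n + 1) → G, ∑ b : Fin (n + 1) → G,
      ∑ A : Fin h → Fin (n + 1) → G, ∑ B : Fin h → Fin (n + 1) → G,
      if a * shf φ b * a⁻¹ * b⁻¹ * (List.ofFn fun i => A i * B i * (A i)⁻¹ * (B i)⁻¹).prod
        = fun _ => z then ∏ i, ((η (b i) : ℂˣ) : ℂ) else 0)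
      = ∑ b : Fin (n + 1) → G, ∏ k : Fin (n + 1), kerM h η z (b k) (shf φ b k) := by
    rw [Finset.sum_comm]
    apply Finset.sum_congr rfl
    intro b _
    have e1 : ∀ a : Fin (n + 1) → G, (∑ A : Fin h → Fin (n + 1) → G, ∑ B : Fin h → Fin (n + 1) → G,
        if a * shf φ b * a⁻¹ * b⁻¹ * (List.ofFn fun i => A i * B i * (A i)⁻¹ * (B i)⁻¹).prod
          = fun _ => z then ∏ i, ((η (b i) : ℂˣ) : ℂ) else 0)
        = (∏ i, ((η (b i) : ℂˣ) : ℂ)) * ∏ k : Fin (n + 1), ∑ A : Fin h → G, ∑ B : Fin h → G,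
          if a k * shf φ b k * (a k)⁻¹ * (b k)⁻¹ *
            (List.ofFn fun i => A i * B i * (A i)⁻¹ * (B i)⁻¹).prod = z then 1 else 0 := by
      intro a
      have e2 := handles (n + 1) h (a * shf φ b * a⁻¹ * b⁻¹) z
      have e3 : ∀ k, (a * shf φ b * a⁻¹ * b⁻¹) k = a k * shf φ b k * (a k)⁻¹ * (b k)⁻¹ :=
        fun k => rfl
      simp only [e3] at e2
      rw [← e2, Finset.mul_sum]
      apply Finset.sum_congr rfl
      intro A _
      rw [Finset.mul_sum]
      apply Finset.sum_congr rfl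
      intro B _
      rw [mul_ite, mul_one, mul_zero]
    rw [Finset.sum_congr rfl fun a _ => e1 a, ← Finset.mul_sum]
    have e4 := sum_fun fun (k : Fin (n + 1)) (a : G) => ∑ A : Fin h → G, ∑ B : Fin h → G,
          if a * shf φ b k * a⁻¹ * (b k)⁻¹ *
            (List.ofFn fun i => A i * B i * (A i)⁻¹ * (B i)⁻¹).prod = z then (1 : ℂ) else 0
    rw [e4, ← Finset.prod_mul_distrib]
    rfl
  rw [step1]
  have step2 : ∑ b : Fin (n + 1) → G, ∏ k : Fin (n + 1), kerM h η z (b k) (shf φ b k)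
      = ∑ x : G, (kerM h η z ^ (n + 1)) x (φ x) := by
    rw [← Equiv.sum_comp (Fin.consEquiv fun _ : Fin (n + 1) => G), Fintype.sum_prod_type]
    apply Finset.sum_congr rfl
    intro x _
    rw [← paths]
    apply Finset.sum_congr rfl
    intro b _
    have e1 : (Fin.consEquiv fun _ : Fin (n + 1) => G) (x, b) = Fin.cons x b := rfl
    rw [e1, shf_cons]
  rw [step2]
  simp only [kerM_pow h η hz]
  rw [← Finset.mul_sum, Finset.sum_comm, Finset.mul_sum, Finset.sum_filter, Finset.mul_sum,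
    Finset.mul_sum]
  apply Finset.sum_congr rfl
  intro χ hχ
  have hχ' := mem_irrSet.mp hχ
  have hη := irr_twist (η ^ (n + 1)) hχ'
  have hηf : (fun g => (((η ^ (n + 1)) g : ℂˣ) : ℂ) * χ g)
      = fun g => ((η g : ℂˣ) : ℂ) ^ (n + 1) * χ g := by
    funext g
    rw [MonoidHom.pow_apply, Units.val_pow_eq_pow_val]
  rw [hηf] at hη
  have hφ := irr_comp φ hχ'
  have h1 := ip_irr hη hφ
  unfold ip at h1
  have h3 := cG (G := G)
  have h2 : ∑ x : G, ((η x : ℂˣ) : ℂ) ^ (n + 1) * χ x * χ (φ x)⁻¹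
      = (Fintype.card G : ℂ) * (if ∀ g, χ (φ g) = ((η g : ℂˣ) : ℂ) ^ (n + 1) * χ g then 1 else 0) := by
    have h4 : (if (fun g => ((η g : ℂˣ) : ℂ) ^ (n + 1) * χ g) = fun g => χ (φ g) then (1 : ℂ) else 0)
        = if ∀ g, χ (φ g) = ((η g : ℂˣ) : ℂ) ^ (n + 1) * χ g then 1 else 0 := by
      apply if_congr _ rfl rfl
      rw [funext_iff]
      exact forall_congr' fun g => eq_comm
    rw [← h4, ← h1, ← mul_assoc, mul_inv_cancel₀ h3, one_mul]
    apply Finset.sum_congr rfl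
    intro x _
    beta_reduce
    rw [map_inv]
  rw [← Finset.mul_sum, h2, central_pow hχ' hz]
  have h5 : n + 1 - 1 = n := rfl
  rw [h5]
  split_ifs with hg
  · rw [mul_pow, ← pow_mul, pow_succ (Fintype.card G : ℂ) n]
    ring
  · ring

end Vale.Agent.P275.H677.E8
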