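import Vale.Agent.P275.H341.Rows2

/-!
# Row M3: the recursion
-/

namespace Vale.Agent.P275.H677

open scoped BigOperators
open Vale.Agent.P275.H341

theorem sum_even (s : ℕ) (f : ℕ → ℂ) :
    ∑ t ∈ s.divisors, (if 2 * t ∣ s then f (2 * t) else 0)
      = ∑ t ∈ s.divisors, (if Odd t then 0 else f t) := by
  rcases Nat.eq_zero_or_pos s with rfl | hs
  · simp
  rw [← Finset.sum_filter]
  have h : ∑ t ∈ s.divisors, (if Odd t then 0 else f t)
      = ∑ t ∈ s.divisors.filter (fun t => ¬ Odd t), f t := by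
    rw [Finset.sum_filter]
    exact Finset.sum_congr rfl fun t _ => by by_cases h : Odd t <;> simp [h]
  rw [h]
  refine Finset.sum_nbij' (fun t => 2 * t) (fun t => t / 2) ?_ ?_ ?_ ?_ ?_
  · intro t ht
    rw [Finset.mem_filter, Nat.mem_divisors] at ht ⊢
    refine ⟨⟨ht.2, hs.ne'⟩, ?_⟩
    rw [Nat.not_odd_iff_even]
    exact even_two_mul t
  · intro t ht
    rw [Finset.mem_filter, Nat.mem_divisors, Nat.not_odd_iff_even] at ht
    obtain ⟨u, hu⟩ := ht.2.two_dvd
    have h2 : t / 2 = u := by omega
    rw [Finset.mem_filter, Nat.mem_divisors, h2, ← hu]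
    exact ⟨⟨(Dvd.intro_left 2 hu.symm).trans ht.1.1, hs.ne'⟩, ht.1.1⟩
  · intro t _
    show 2 * t / 2 = t
    omega
  · intro t ht
    rw [Finset.mem_filter, Nat.not_odd_iff_even] at ht
    obtain ⟨u, hu⟩ := ht.2.two_dvd
    show 2 * (t / 2) = t
    omega
  · intro t _
    rfl

theorem sum_moebius (s : ℕ) :
    ∑ t ∈ s.divisors, ((if Odd t then ((ArithmeticFunction.moebius t : ℤ) : ℂ) else 0)
      + (if 2 * t ∣ s then ((ArithmeticFunction.moebius (2 * t) : ℤ) : ℂ) else 0))
      = if s = 1 then 1 else 0 := by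
  rw [Finset.sum_add_distrib,
    sum_even s (fun t => ((ArithmeticFunction.moebius t : ℤ) : ℂ)), ← Finset.sum_add_distrib]
  have h1 : ∀ t ∈ s.divisors, ((if Odd t then ((ArithmeticFunction.moebius t : ℤ) : ℂ) else 0)
      + (if Odd t then 0 else ((ArithmeticFunction.moebius t : ℤ) : ℂ)))
      = ((ArithmeticFunction.moebius t : ℤ) : ℂ) := by
    intro t _
    by_cases h : Odd t <;> simp [h]
  rw [Finset.sum_congr rfl h1]
  have h2 : ∑ t ∈ s.divisors, ArithmeticFunction.moebius t = if s = 1 then 1 else 0 := by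
    rw [← ArithmeticFunction.coe_mul_zeta_apply, ArithmeticFunction.moebius_mul_coe_zeta,
      ArithmeticFunction.one_apply]
  have h3 := congrArg (fun z : ℤ => (z : ℂ)) h2
  simp only [Int.cast_sum] at h3
  rw [h3]
  by_cases h : s = 1
  · rw [if_pos h, if_pos h, Int.cast_one]
  · rw [if_neg h, if_neg h, Int.cast_zero]

/-- **Row M3** -/
theorem rmthree : RMthree := by
  intro m Q a b hm hb ha
  obtain ⟨A, hA⟩ : ∃ A : ℕ → ℂ, ∀ s, A s = if Odd s then
      -(Q / (2 * s)) * ((ArithmeticFunction.moebius s : ℤ) : ℂ) else 0 := ⟨_, fun _ => rfl⟩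
  have hAs : ∀ s, s ∣ m → ∑ t ∈ s.divisors, ((t : ℂ) / s) * (A t - if 2 * t ∣ s then b t else 0)
      = if s = 1 then -(Q / 2) else 0 := by
    intro s hs
    have hs0 : s ≠ 0 := by
      rintro rfl
      exact hm.ne' (Nat.eq_zero_of_zero_dvd hs)
    have h1 : ∀ t ∈ s.divisors, ((t : ℂ) / s) * (A t - if 2 * t ∣ s then b t else 0)
        = (-(Q / 2) / s) * ((if Odd t then ((ArithmeticFunction.moebius t : ℤ) : ℂ) else 0)
          + (if 2 * t ∣ s then ((ArithmeticFunction.moebius (2 * t) : ℤ) : ℂ) else 0)) := by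
      intro t ht
      have ht0 : (t : ℂ) ≠ 0 := by
        have := Nat.pos_of_mem_divisors ht
        exact_mod_cast this.ne'
      rw [hA]
      by_cases h2 : 2 * t ∣ s
      · rw [if_pos h2, if_pos h2, hb t (h2.trans hs)]
        by_cases h3 : Odd t
        · rw [if_pos h3, if_pos h3]
          field_simp
          ring
        · rw [if_neg h3, if_neg h3]
          field_simp
          ring
      · rw [if_neg h2, if_neg h2]
        by_cases h3 : Odd t
        · rw [if_pos h3, if_pos h3]
          field_simp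
          ring
        · rw [if_neg h3, if_neg h3]
          ring
    rw [Finset.sum_congr rfl h1, ← Finset.mul_sum, sum_moebius]
    by_cases h : s = 1
    · rw [if_pos h, if_pos h, h]
      simp
    · rw [if_neg h, if_neg h, mul_zero]
  intro s
  induction s using Nat.strong_induction_on with
  | _ s ih =>
    intro hs
    have hs0 : s ≠ 0 := by
      rintro rfl
      exact hm.ne' (Nat.eq_zero_of_zero_dvd hs)
    have hs0' : (s : ℂ) ≠ 0 := by exact_mod_cast hs0
    have e := ha s hs
    rw [← hAs s hs, ← Nat.insert_self_properDivisors hs0,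
      Finset.sum_insert Nat.self_notMem_properDivisors,
      Finset.sum_insert Nat.self_notMem_properDivisors] at e
    have h1 : ∀ t ∈ s.properDivisors, ((t : ℂ) / s) * (a t - if 2 * t ∣ s then b t else 0)
        = ((t : ℂ) / s) * (A t - if 2 * t ∣ s then b t else 0) := by
      intro t ht
      rw [Nat.mem_properDivisors] at ht
      rw [ih t ht.2 (ht.1.trans hs), hA]
    rw [Finset.sum_congr rfl h1] at e
    have e2 := add_right_cancel e
    rw [div_self hs0', one_mul, one_mul] at e2
    rw [← hA]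
    linear_combination e2

end Vale.Agent.P275.H677
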