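import Vale.Agent.P275.H341.Rows

/-!
# Row TWO: the stable constituents of the square of an orbit
-/

set_option linter.style.haveILetI false
set_option linter.unusedSectionVars false

namespace Vale.Agent.P275.H677

open scoped BigOperators MatrixGroups
open Module Matrix Vale.Agent.P275.H85 Vale.Agent.P275.H341

variable {F : Type} [Field F] [Fintype F] [DecidableEq F]

/-! ### the semiring of families -/

/-- pointwise sum of families -/
noncomputable def addF (f g : CF F) : CF F := fun V _ _ _ φ => f V φ + g V φ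

/-- the zero family -/
noncomputable def zeroF (F : Type) [Field F] : CF F := fun _ _ _ _ _ => 0

theorem inv_addF {f g : CF F} (hf : IsoInv f) (hg : IsoInv g) : IsoInv (addF f g) := by
  intro V W _ _ _ _ _ _ e φ ψ h
  unfold addF
  rw [hf V W e φ ψ h, hg V W e φ ψ h]

theorem inv_zeroF : IsoInv (zeroF F) := fun _ _ _ _ _ _ _ _ _ _ _ _ => rfl

variable {V : Type} [AddCommGroup V] [Module F V] [FiniteDimensional F V]

theorem term_addF_left (f f' g : CF F) (φ : V →ₗ[F] V) (K : Submodule F V) :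
    term (addF f f') g φ K = term f g φ K + term f' g φ K := by
  by_cases h : K ≤ K.comap φ
  · rw [term_of h, term_of h, term_of h]
    unfold addF
    ring
  · rw [term_of_not h, term_of_not h, term_of_not h, add_zero]

theorem mul_addF_left (f f' g : CF F) : mul (addF f f') g = addF (mul f g) (mul f' g) := by
  apply CF_ext
  intro V _ _ _ φ
  show ∑ K : Submodule F V, term (addF f f') g φ K =
    ∑ K : Submodule F V, term f g φ K + ∑ K : Submodule F V, term f' g φ K
  rw [← Finset.sum_add_distrib]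
  exact Finset.sum_congr rfl fun K _ => term_addF_left f f' g φ K

theorem mul_zeroF_left (g : CF F) : mul (zeroF F) g = zeroF F := by
  apply CF_ext
  intro V _ _ _ φ
  show ∑ K : Submodule F V, term (zeroF F) g φ K = 0
  apply Finset.sum_eq_zero
  intro K _
  by_cases h : K ≤ K.comap φ
  · rw [term_of h]
    unfold zeroF
    ring
  · rw [term_of_not h]

/-- the families invariant under isomorphism -/
def IF (F : Type) [Field F] [Fintype F] : Type 1 := {f : CF F // IsoInv f}

noncomputable instance instAddIF : Add (IF F) := ⟨fun f g => ⟨addF f.1 g.1, inv_addF f.2 g.2⟩⟩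

noncomputable instance instZeroIF : Zero (IF F) := ⟨⟨zeroF F, inv_zeroF⟩⟩

/-- The commutative semiring of invariant families. -/
noncomputable instance instIF [hC : Fact RComm] : CommSemiring (IF F) where
  mul f g := ⟨mul f.1 g.1, inv_mul f.2 g.2⟩
  one := ⟨H85.one, inv_one⟩
  add_assoc f g h := Subtype.ext (CF_ext fun V _ _ _ φ => add_assoc _ _ _)
  zero_add f := Subtype.ext (CF_ext fun V _ _ _ φ => zero_add _)
  add_zero f := Subtype.ext (CF_ext fun V _ _ _ φ => add_zero _)
  add_comm f g := Subtype.ext (CF_ext fun V _ _ _ φ => add_comm _ _)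
  left_distrib f g h := Subtype.ext (by
    show mul f.1 (addF g.1 h.1) = addF (mul f.1 g.1) (mul f.1 h.1)
    rw [hC.out F _ _ f.2 (inv_addF g.2 h.2), mul_addF_left, hC.out F _ _ g.2 f.2,
      hC.out F _ _ h.2 f.2])
  right_distrib f g h := Subtype.ext (mul_addF_left _ _ _)
  zero_mul f := Subtype.ext (mul_zeroF_left _)
  mul_zero f := Subtype.ext (by
    show mul f.1 (zeroF F) = zeroF F
    rw [hC.out F _ _ f.2 inv_zeroF, mul_zeroF_left])
  mul_assoc f g h := Subtype.ext (CF_mul_assoc f.2 g.2 h.2)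
  one_mul f := Subtype.ext (CF_one_mul f.2)
  mul_one f := Subtype.ext (CF_mul_one f.2)
  mul_comm f g := Subtype.ext (hC.out F _ _ f.2 g.2)
  nsmul := nsmulRec

section ring

variable [hC : Fact RComm]

theorem val_mul (x y : IF F) : (x * y).1 = mul x.1 y.1 := rfl

theorem val_one : (1 : IF F).1 = H85.one := rfl

theorem val_add (x y : IF F) : (x + y).1 = addF x.1 y.1 := rfl

/-- restriction to `GL_n` as an additive map -/
noncomputable def rsH (n : ℕ) : IF F →+ (GL (Fin n) F → ℂ) where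
  toFun x := rs n x.1
  map_zero' := rfl
  map_add' _ _ := rfl

theorem rsH_apply (n : ℕ) (x : IF F) : rsH n x = rs n x.1 := rfl

/-! ### twists -/

theorem kx_mul (κ κ' : Fˣ →* ℂˣ) (d : F) : kx κ d * kx κ' d = kx (κ * κ') d := by
  by_cases hd : IsUnit d
  · obtain ⟨u, rfl⟩ := hd
    unfold kx
    rw [MulChar.ofUnitHom_coe, MulChar.ofUnitHom_coe, MulChar.ofUnitHom_coe, MonoidHom.mul_apply,
      Units.val_mul]
  · rw [MulChar.map_nonunit _ hd, MulChar.map_nonunit _ hd, MulChar.map_nonunit _ hd, zero_mul]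

theorem twf_twf (κ κ' : Fˣ →* ℂˣ) (f : CF F) : twf κ (twf κ' f) = twf (κ * κ') f := by
  apply CF_ext
  intro V _ _ _ φ
  unfold twf
  rw [← mul_assoc, kx_mul]

/-- the twist of an invariant family -/
noncomputable def twR (κ : Fˣ →* ℂˣ) : IF F →* IF F where
  toFun x := ⟨twf κ x.1, inv_twf κ x.2⟩
  map_one' := Subtype.ext (twf_one κ)
  map_mul' x y := Subtype.ext (mul_twf κ x.1 y.1).symm

theorem twR_val (κ : Fˣ →* ℂˣ) (x : IF F) : (twR κ x).1 = twf κ x.1 := rfl

theorem twR_add (κ : Fˣ →* ℂˣ) (x y : IF F) : twR κ (x + y) = twR κ x + twR κ y := by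
  apply Subtype.ext
  apply CF_ext
  intro V _ _ _ φ
  exact mul_add _ _ _

theorem twR_twR (κ κ' : Fˣ →* ℂˣ) (x : IF F) : twR κ (twR κ' x) = twR (κ * κ') x :=
  Subtype.ext (twf_twf κ κ' x.1)

theorem twR_id {n : ℕ} {x : IF F} (hs : Supp n x.1) : twR 1 x = x := by
  apply Subtype.ext
  apply CF_ext
  intro V _ _ _ φ
  rw [twR_val]
  unfold twf kx
  by_cases hd : IsUnit (LinearMap.det φ)
  · obtain ⟨u, hu⟩ := hd
    rw [← hu, MulChar.ofUnitHom_coe, MonoidHom.one_apply, Units.val_one, one_mul]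
  · have h0 : x.1 V φ = 0 :=
      hs V φ (Or.inr fun h => hd ((LinearMap.isUnit_iff_isUnit_det φ).mp h))
    rw [h0, mul_zero]

/-! ### lists of cuspidal characters -/

/-- a cuspidal character as an element of the semiring -/
noncomputable def cR (c : Cu F) : IF F := ⟨c.f, c.inv⟩

theorem cR_twist (κ : Fˣ →* ℂˣ) (c : Cu F) : cR (c.twist κ) = twR κ (cR c) :=
  Subtype.ext (Cu.twist_f κ c)

theorem prodC_eq (L : List (Cu F)) : prodC L = ((L.map cR).prod).1 := by
  induction L with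
  | nil => rfl
  | cons c L ih =>
    show mul c.f (prodC L) = _
    rw [List.map_cons, List.prod_cons, val_mul, ih]
    rfl

theorem prodC_perm {L L' : List (Cu F)} (h : L.Perm L') : prodC L = prodC L' := by
  rw [prodC_eq, prodC_eq, (h.map cR).prod_eq]

/-- every element of the list twice -/
def dbl : List (Cu F) → List (Cu F)
  | [] => []
  | c :: L => c :: c :: dbl L

theorem mem_dbl {c : Cu F} {L : List (Cu F)} : c ∈ dbl L ↔ c ∈ L := by
  induction L with
  | nil => exact Iff.rfl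
  | cons d L ih =>
    rw [dbl, List.mem_cons, List.mem_cons, List.mem_cons, ih]
    tauto

theorem perm_dbl (L : List (Cu F)) : (L ++ L).Perm (dbl L) := by
  induction L with
  | nil => exact List.Perm.refl _
  | cons c L ih =>
    rw [dbl, List.cons_append]
    refine List.Perm.cons c ?_
    exact (List.perm_middle (a := c) (l₁ := L) (l₂ := L)).trans (List.Perm.cons c ih)

open scoped Classical in
theorem pair_dbl (L : List (Cu F)) (h : L.Nodup) : pair (dbl L) (dbl L) = 2 ^ L.length := by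
  induction L with
  | nil =>
    rw [List.length_nil, pow_zero]
    exact pair_nodup [] List.nodup_nil [] (List.Perm.refl _)
  | cons c L ih =>
    obtain ⟨hc, hL⟩ := List.nodup_cons.mp h
    have hne : ∀ k : Fin (dbl L).length, c ≠ (dbl L).get k := fun k hk =>
      hc (mem_dbl.mp (hk ▸ List.get_mem _ _))
    have h1 : pair (c :: dbl L) (c :: dbl L) = pair (dbl L) (dbl L) := by
      rw [pair_cons]
      show ∑ i : Fin ((dbl L).length + 1), (if c = (c :: dbl L).get i then
        pair (dbl L) ((c :: dbl L).eraseIdx i) else 0) = _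
      rw [Fin.sum_univ_succ]
      have h2 : ∑ k : Fin (dbl L).length, (if c = (c :: dbl L).get k.succ then
        pair (dbl L) ((c :: dbl L).eraseIdx k.succ) else 0) = 0 := by
        apply Finset.sum_eq_zero
        intro k _
        exact if_neg (hne k)
      rw [h2, add_zero]
      exact if_pos rfl
    rw [dbl, pair_cons]
    show ∑ i : Fin ((dbl L).length + 1 + 1), (if c = (c :: c :: dbl L).get i then
      pair (c :: dbl L) ((c :: c :: dbl L).eraseIdx i) else 0) = _
    rw [Fin.sum_univ_succ, Fin.sum_univ_succ]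
    have h2 : ∑ k : Fin (dbl L).length, (if c = (c :: c :: dbl L).get k.succ.succ then
      pair (c :: dbl L) ((c :: c :: dbl L).eraseIdx k.succ.succ) else 0) = 0 := by
      apply Finset.sum_eq_zero
      intro k _
      exact if_neg (hne k)
    have h3 : (if c = (c :: c :: dbl L).get (0 : Fin ((dbl L).length + 1 + 1)) then
      pair (c :: dbl L) ((c :: c :: dbl L).eraseIdx (0 : Fin ((dbl L).length + 1 + 1))) else 0)
        = pair (dbl L) (dbl L) := by
      rw [← h1]
      exact if_pos rfl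
    have h4 : (if c = (c :: c :: dbl L).get (Fin.succ (0 : Fin ((dbl L).length + 1))) then
      pair (c :: dbl L) ((c :: c :: dbl L).eraseIdx (Fin.succ (0 : Fin ((dbl L).length + 1))))
        else 0) = pair (dbl L) (dbl L) := by
      rw [← h1]
      exact if_pos rfl
    rw [h2, h3, h4, ih hL, List.length_cons, pow_succ]
    ring

/-! ### degrees -/

/-- support, positivity and degree of a family -/
structure Gd (n : ℕ) (x : IF F) (d : ℂ) : Prop where
  sp : Supp n x.1
  ps : Pos (rs n x.1)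
  dg : rs n x.1 1 * ((Fintype.card F : ℂ) ^ (Nat.choose n 2) * d) = Fintype.card (GL (Fin n) F)

theorem Gd.one : Gd 0 (1 : IF F) 1 := by
  refine ⟨supp_one, pos_one, ?_⟩
  show rs 0 H85.one 1 * _ = (Fintype.card (GL (Fin 0) F) : ℂ)
  rw [rs_one]
  have : Fintype.card (GL (Fin 0) F) = 1 := by
    rw [card_gl]
    simp
  rw [this]
  simp

theorem Gd.mul {e m : ℕ} {x y : IF F} {d d' : ℂ} (hx : Gd e x d) (hy : Gd m y d') :
    Gd (m + e) (x * y) (d * d') := by
  refine ⟨supp_mul hx.sp hy.sp rfl, ?_, ?_⟩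
  · have := pos_mul (n := m + e) rfl hx.ps hy.ps
    rwa [toCF_rs' x.2 hx.sp, toCF_rs' y.2 hy.sp] at this
  · rw [val_mul, rs_one_eq, mul_id x.2 y.2 hx.sp (e := e) (m := m) (by simp)]
    rw [card_split (V' := Fin (m + e) → F) e m (m + e) rfl (by simp)]
    have h1 := hx.dg
    have h2 := hy.dg
    rw [rs_one_eq] at h1 h2
    rw [choose_two_add m e]
    push_cast
    rw [← h1, ← h2]
    rw [pow_add, pow_add]
    ring

theorem Gd.cast {n n' : ℕ} {x : IF F} {d : ℂ} (h : Gd n x d) (e : n = n') : Gd n' x d := by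
  rw [← e]
  exact h

theorem Gd.prod {ι : Type} {t : ℕ} {x : ι → IF F} {d : ι → ℂ} (h : ∀ i, Gd t (x i) (d i))
    (S : Finset ι) : Gd (S.card * t) (∏ i ∈ S, x i) (∏ i ∈ S, d i) := by
  classical
  induction S using Finset.induction_on with
  | empty =>
    rw [Finset.prod_empty, Finset.prod_empty, Finset.card_empty]
    exact Gd.one.cast (Nat.zero_mul t).symm
  | insert i S hi ih =>
    rw [Finset.prod_insert hi, Finset.prod_insert hi, Finset.card_insert_of_notMem hi]
    exact ((h i).mul ih).cast (Nat.succ_mul _ _).symm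

theorem card_GL_ne (n : ℕ) : (Fintype.card (GL (Fin n) F) : ℂ) ≠ 0 := by
  exact_mod_cast Fintype.card_ne_zero

theorem Gd.ne {n : ℕ} {x : IF F} {d : ℂ} (h : Gd n x d) : rs n x.1 1 ≠ 0 := by
  intro h0
  have h1 := h.dg
  rw [h0, zero_mul] at h1
  exact card_GL_ne n h1.symm

theorem Gd.ne' {n : ℕ} {x : IF F} {d : ℂ} (h : Gd n x d) : rs n x.1 ≠ 0 := by
  intro h0
  apply h.ne
  rw [h0]
  rfl

theorem q_ne : (Fintype.card F : ℂ) ≠ 0 := by
  exact_mod_cast Fintype.card_ne_zero

theorem Gd.hh {n : ℕ} {x : IF F} {d : ℂ} (h : Gd n x d) : hh (rs n x.1) = d := by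
  unfold H341.hh
  rw [← h.dg]
  have h1 := h.ne
  have h2 : (Fintype.card F : ℂ) ^ (Nat.choose n 2) ≠ 0 := pow_ne_zero _ q_ne
  field_simp

theorem Gd.unique {n : ℕ} {x y : IF F} {d d' : ℂ} (h : Gd n x d) (h' : Gd n y d')
    (he : rs n x.1 = rs n y.1) : d = d' := by
  rw [← h.hh, ← h'.hh, he]

/-! ### the constituents of the square of a cuspidal character -/

theorem toCF_add {n : ℕ} (χ χ' : GL (Fin n) F → ℂ) :
    toCF (χ + χ') = addF (toCF χ) (toCF χ') := by
  apply CF_ext
  intro V _ _ _ φ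
  unfold addF toCF
  split_ifs with h
  · unfold ez
    split_ifs with h1
    · rfl
    · rw [add_zero]
  · rw [add_zero]

theorem tw_one {n : ℕ} (κ : Fˣ →* ℂˣ) : tw κ (1 : GL (Fin n) F) = 1 := by
  rw [tw_eq, map_one, Units.val_one]

open scoped Classical in
theorem tw_fix {κ : Fˣ →* ℂˣ} {c : Cu F} (h : c.twist κ = c)
    {X Y : GL (Fin (c.s + c.s)) F → ℂ} (hX : IsIrrChar X) (hY : IsIrrChar Y)
    (hs : rs (c.s + c.s) (mul c.f c.f) = X + Y) (hne : X 1 ≠ Y 1) :
    (fun g => tw κ g * X g) = X := by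
  have e1 : twf κ (mul c.f c.f) = mul c.f c.f := by
    rw [← mul_twf, ← Cu.twist_f, h]
  have e2 := rs_twf (n := c.s + c.s) κ (mul c.f c.f)
  rw [e1, hs] at e2
  obtain ⟨X', hX'⟩ : ∃ X' : GL (Fin (c.s + c.s)) F → ℂ, X' = fun g => tw κ g * X g := ⟨_, rfl⟩
  obtain ⟨Y', hY'⟩ : ∃ Y' : GL (Fin (c.s + c.s)) F → ℂ, Y' = fun g => tw κ g * Y g := ⟨_, rfl⟩
  have iX : IsIrrChar X' := hX' ▸ Cu.irr_tw κ hX
  have iY : IsIrrChar Y' := hY' ▸ Cu.irr_tw κ hY
  have e3 : X + Y = X' + Y' := by
    rw [e2, hX', hY']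
    funext g
    exact mul_add _ _ _
  rw [← hX']
  have e4 : ip (X + Y) X' = ip (X' + Y') X' := by rw [e3]
  rw [ip_add_left, ip_add_left, ip_irr hX iX, ip_irr hY iX, ip_irr iX iX, ip_irr iY iX,
    if_pos rfl] at e4
  by_contra hcon
  rw [if_neg (fun h => hcon h.symm), zero_add] at e4
  by_cases h1 : Y = X'
  · apply hne
    rw [h1, hX']
    show X 1 = tw κ 1 * X 1
    rw [tw_one, one_mul]
  · rw [if_neg h1] at e4
    split_ifs at e4 with h2
    · norm_num at e4
    · norm_num at e4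

/-- the inverse degrees -/
noncomputable def dd (F : Type) [Field F] [Fintype F] (s : ℕ) (b : Bool) : ℂ :=
  if b then (((Fintype.card F : ℂ) ^ s - 1) * ((Fintype.card F : ℂ) ^ (2 * s) - 1)) /
    (Fintype.card F : ℂ) ^ s
  else ((Fintype.card F : ℂ) ^ s - 1) * ((Fintype.card F : ℂ) ^ (2 * s) - 1)

theorem Gd.tw {n : ℕ} {x : IF F} {d : ℂ} (h : Gd n x d) (hi : IsIrrChar (rs n x.1))
    (κ : Fˣ →* ℂˣ) : Gd n (twR κ x) d := by
  refine ⟨supp_twf κ h.sp, ?_, ?_⟩
  · rw [twR_val, rs_twf]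
    exact (Cu.irr_tw κ hi).pos
  · rw [twR_val, rs_twf]
    show H85.tw κ 1 * rs n x.1 1 * _ = _
    rw [tw_one, one_mul]
    exact h.dg

theorem Gd.toCF {n : ℕ} {X : GL (Fin n) F → ℂ} (hX : IsIrrChar X) {d : ℂ}
    (h : X 1 * ((Fintype.card F : ℂ) ^ (Nat.choose n 2) * d) = Fintype.card (GL (Fin n) F)) :
    Gd n (⟨H85.toCF X, inv_toCF hX.isClass⟩ : IF F) d := by
  refine ⟨supp_toCF X, ?_, ?_⟩
  · show Pos (rs n (H85.toCF X))
    rw [rs_toCF hX.isClass]
    exact hX.pos
  · show rs n (H85.toCF X) 1 * _ = _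
    rw [rs_toCF hX.isClass]
    exact h

theorem q_pow_ne_one {s : ℕ} (hs : 0 < s) : (Fintype.card F : ℂ) ^ s ≠ 1 := by
  have h1 : 1 < Fintype.card F := Fintype.one_lt_card
  have h2 : 1 < (Fintype.card F) ^ s := Nat.one_lt_pow hs.ne' h1
  exact_mod_cast h2.ne'

theorem exists_B (hS : RSq) (c : Cu F) : ∃ B : Bool → IF F,
    (∀ b, IsIrrChar (rs (c.s + c.s) (B b).1)) ∧ (∀ b, Gd (c.s + c.s) (B b) (dd F c.s b)) ∧
    cR c * cR c = B true + B false ∧
    ∀ κ : Fˣ →* ℂˣ, c.twist κ = c → ∀ b, twR κ (B b) = B b := by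
  obtain ⟨X, Y, hX, hY, -, hs, dX, dY⟩ := hS F c
  have hq : (Fintype.card F : ℂ) ^ c.s ≠ 0 := pow_ne_zero _ q_ne
  have hne : X 1 ≠ Y 1 := by
    intro h
    rw [← h, dX] at dY
    apply q_pow_ne_one (F := F) c.pos
    exact mul_right_cancel₀ (card_GL_ne (c.s + c.s)) (by rw [dY, one_mul])
  have gX : Gd (c.s + c.s) (⟨toCF X, inv_toCF hX.isClass⟩ : IF F) (dd F c.s true) := by
    apply Gd.toCF hX
    unfold dd
    rw [if_pos rfl]
    apply mul_left_cancel₀ hq
    rw [← dX]
    field_simp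
  have gY : Gd (c.s + c.s) (⟨toCF Y, inv_toCF hY.isClass⟩ : IF F) (dd F c.s false) := by
    apply Gd.toCF hY
    unfold dd
    rw [if_neg (by decide)]
    exact dY
  have tX : ∀ κ : Fˣ →* ℂˣ, c.twist κ = c →
      twR κ (⟨toCF X, inv_toCF hX.isClass⟩ : IF F) = ⟨toCF X, inv_toCF hX.isClass⟩ := by
    intro κ hκ
    apply Subtype.ext
    show twf κ (toCF X) = toCF X
    rw [← toCF_tw κ hX.isClass, tw_fix hκ hX hY hs hne]
  have tY : ∀ κ : Fˣ →* ℂˣ, c.twist κ = c →
      twR κ (⟨toCF Y, inv_toCF hY.isClass⟩ : IF F) = ⟨toCF Y, inv_toCF hY.isClass⟩ := by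
    intro κ hκ
    apply Subtype.ext
    show twf κ (toCF Y) = toCF Y
    rw [← toCF_tw κ hY.isClass, tw_fix hκ hY hX (hs.trans (add_comm X Y)) hne.symm]
  refine ⟨fun b => if b then ⟨toCF X, inv_toCF hX.isClass⟩ else ⟨toCF Y, inv_toCF hY.isClass⟩,
    ?_, ?_, ?_, ?_⟩
  · intro b
    cases b
    · show IsIrrChar (rs (c.s + c.s) (toCF Y))
      rw [rs_toCF hY.isClass]
      exact hY
    · show IsIrrChar (rs (c.s + c.s) (toCF X))
      rw [rs_toCF hX.isClass]
      exact hX
  · intro b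
    cases b
    · exact gY
    · exact gX
  · apply Subtype.ext
    show mul c.f c.f = addF (toCF X) (toCF Y)
    rw [← toCF_add, ← hs, toCF_rs' (inv_mul c.inv c.inv) (supp_mul c.supp c.supp rfl)]
  · intro κ hκ b
    cases b
    · exact tY κ hκ
    · exact tX κ hκ

/-! ### the expansion of the square of an orbit -/

/-- the element of a sign vector -/
noncomputable def Pr (B : Bool → IF F) (κ : Fˣ →* ℂˣ) (j : ℕ) (ε : Fin j → Bool) : IF F :=
  ∏ i : Fin j, twR (κ ^ (i : ℕ)) (B (ε i))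

theorem list_prod_range (f : ℕ → IF F) (j : ℕ) :
    ((List.range j).map f).prod = ∏ i : Fin j, f i := by
  rw [← Finset.prod_range]
  induction j with
  | zero => simp
  | succ j ih => rw [List.range_succ, List.map_append, List.prod_append, ih,
      Finset.prod_range_succ, List.map_singleton, List.prod_singleton]

theorem expand_sq {B : Bool → IF F} {c : Cu F} (hB : cR c * cR c = B true + B false)
    (κ : Fˣ →* ℂˣ) (j : ℕ) : prodC (orb c κ j ++ orb c κ j) =
      (∑ ε : Fin j → Bool, Pr B κ j ε).1 := by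
  rw [prodC_eq]
  congr 1
  rw [List.map_append, List.prod_append]
  have h1 : ((orb c κ j).map cR).prod = ∏ i : Fin j, twR (κ ^ (i : ℕ)) (cR c) := by
    unfold orb
    rw [List.map_map]
    have : (cR ∘ fun j => c.twist (κ ^ j)) = fun i => twR (κ ^ i) (cR c) := by
      funext i
      exact cR_twist _ _
    rw [this]
    exact list_prod_range _ j
  rw [h1, ← Finset.prod_mul_distrib]
  have h2 : ∀ i : Fin j, twR (κ ^ (i : ℕ)) (cR c) * twR (κ ^ (i : ℕ)) (cR c)
      = ∑ b : Bool, twR (κ ^ (i : ℕ)) (B b) := by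
    intro i
    rw [← map_mul, hB, twR_add, Fintype.sum_bool]
  rw [Finset.prod_congr rfl fun i _ => h2 i]
  unfold Pr
  exact Fintype.prod_sum fun (i : Fin j) (b : Bool) => twR (κ ^ (i : ℕ)) (B b)

theorem Gd.Pr {B : Bool → IF F} {t : ℕ} {d : Bool → ℂ} (hi : ∀ b, IsIrrChar (rs t (B b).1))
    (hB : ∀ b, Gd t (B b) (d b)) (κ : Fˣ →* ℂˣ) (j : ℕ) (ε : Fin j → Bool) :
    Gd (j * t) (Pr B κ j ε) (∏ i, d (ε i)) := by
  have h := Gd.prod (x := fun i : Fin j => twR (κ ^ (i : ℕ)) (B (ε i))) (d := fun i => d (ε i))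
    (fun i => (hB (ε i)).tw (hi (ε i)) _) Finset.univ
  rw [Finset.card_univ, Fintype.card_fin] at h
  exact h

theorem tw_Pr {B : Bool → IF F} {κ : Fˣ →* ℂˣ} {k n : ℕ} (hs : ∀ b, Supp n (B b).1)
    (hB : ∀ b, twR (κ ^ (k + 1)) (B b) = B b) (ε : Fin (k + 1) → Bool) :
    twR κ (Pr B κ (k + 1) ε) = Pr B κ (k + 1) (ε ∘ (finRotate (k + 1)).symm) := by
  unfold Pr
  rw [map_prod]
  rw [← Equiv.prod_comp (finRotate (k + 1))
    (fun i => twR (κ ^ (i : ℕ)) (B ((ε ∘ (finRotate (k + 1)).symm) i)))]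
  apply Finset.prod_congr rfl
  intro i _
  rw [twR_twR, Function.comp_apply, Equiv.symm_apply_apply]
  by_cases hi : i = Fin.last k
  · subst hi
    rw [finRotate_last, Fin.val_last, Fin.val_zero, hpow_zero, twR_id (hs _), mul_comm κ, hpow_succ, hB]
  · rw [coe_finRotate_of_ne_last hi, mul_comm κ, hpow_succ]

theorem const_of_shift {k : ℕ} {ε : Fin (k + 1) → Bool}
    (h : ε ∘ (finRotate (k + 1)).symm = ε) (i : Fin (k + 1)) : ε i = ε 0 := by
  have h1 : ∀ i, ε (finRotate (k + 1) i) = ε i := by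
    intro i
    have := congrFun h (finRotate (k + 1) i)
    rw [Function.comp_apply, Equiv.symm_apply_apply] at this
    exact this.symm
  induction i using Fin.induction with
  | zero => rfl
  | succ i ih =>
    have h2 := h1 i.castSucc
    rw [finRotate_apply, Fin.coeSucc_eq_succ] at h2
    rw [h2, ih]

end ring

open scoped Classical in
/-- **Row TWO** -/
theorem rtwo (hC : RComm) (hN : RNorm) (hS : RSq) : RTwo := by
  intro F _ _ _ m hm κ c j hj hcl hnd
  haveI : Fact RComm := ⟨hC⟩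
  subst hj
  have hj0 : j ≠ 0 := by
    rintro rfl
    rw [zero_mul] at hm
    exact lt_irrefl _ hm
  obtain ⟨k, rfl⟩ := Nat.exists_eq_succ_of_ne_zero hj0
  obtain ⟨B, hBi, hBg, hB2, hBt⟩ := exists_B hS c
  obtain ⟨n, hn⟩ : ∃ n, n = (k + 1) * c.s + (k + 1) * c.s := ⟨_, rfl⟩
  have hn2 : (k + 1) * (c.s + c.s) = n := by rw [hn, Nat.mul_add]
  rw [← hn]
  have hg : ∀ ε : Fin (k + 1) → Bool, Gd n (Pr B κ (k + 1) ε) (∏ i, dd F c.s (ε i)) := fun ε =>
    (Gd.Pr hBi hBg κ (k + 1) ε).cast hn2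
  obtain ⟨P, hP⟩ : ∃ P : (Fin (k + 1) → Bool) → GL (Fin n) F → ℂ,
      P = fun ε => rs n (Pr B κ (k + 1) ε).1 := ⟨_, rfl⟩
  have hPe : ∀ ε, P ε = rs n (Pr B κ (k + 1) ε).1 := fun ε => by rw [hP]
  have hsum : rs n (prodC (orb c κ (k + 1) ++ orb c κ (k + 1))) = ∑ ε, P ε := by
    rw [expand_sq hB2 κ (k + 1), ← rsH_apply, map_sum]
    exact Finset.sum_congr rfl fun ε _ => (hPe ε).symm
  have hnorm : ip (∑ ε, P ε) (∑ ε, P ε) = Fintype.card (Fin (k + 1) → Bool) := by
    rw [← hsum, prodC_perm (perm_dbl (orb c κ (k + 1)))]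
    have hsz : size (dbl (orb c κ (k + 1))) = n := by
      rw [← size_perm (perm_dbl (orb c κ (k + 1))), size_append, size_orb, hn]
    have h1 := pair_dbl (orb c κ (k + 1)) hnd
    unfold pair at h1
    rw [hsz, orb_length] at h1
    rw [h1, Fintype.card_fun, Fintype.card_bool, Fintype.card_fin]
    push_cast
    rfl
  obtain ⟨hirr, hinj⟩ := hN (GL (Fin n) F) (Fin (k + 1) → Bool) P
    (fun ε => by rw [hPe]; exact (hg ε).ps) (fun ε => by rw [hPe]; exact (hg ε).ne') hnorm
  have hone : ∀ ε, ip (rs n (prodC (orb c κ (k + 1) ++ orb c κ (k + 1)))) (P ε) = 1 := by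
    intro ε
    rw [hsum, ip_sum_left, Finset.sum_eq_single ε]
    · rw [ip_irr (hirr ε) (hirr ε), if_pos rfl]
    · intro ε' _ hne
      rw [ip_irr (hirr ε') (hirr ε), if_neg (fun h => hne (hinj h))]
    · intro h
      exact absurd (Finset.mem_univ ε) h
  have htw : ∀ ε g, tw κ g * P ε g = P (ε ∘ (finRotate (k + 1)).symm) g := by
    intro ε g
    rw [hPe, hPe, ← tw_Pr (fun b => (hBg b).sp) (hBt _ hcl) ε, twR_val, rs_twf]
  have hstc : ∀ b : Bool, P (fun _ => b) ∈ stb n κ := by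
    intro b
    unfold stb
    rw [Finset.mem_filter, mem_irrSet]
    exact ⟨hirr _, fun g => htw (fun _ => b) g⟩
  have hj0' : (0 : Fin (k + 1)) = 0 := rfl
  refine ⟨P fun _ => true, P fun _ => false, hstc true, hstc false, ?_, hone _, hone _, ?_, ?_, ?_⟩
  · intro h
    have := congrFun (hinj h) (0 : Fin (k + 1))
    exact absurd this (by decide)
  · intro χ hχ hne
    unfold stb at hχ
    rw [Finset.mem_filter, mem_irrSet] at hχ
    obtain ⟨hχi, hχs⟩ := hχ
    have h1 : ∃ ε, P ε = χ := by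
      by_contra hcon
      push Not at hcon
      apply hne
      rw [hsum, ip_sum_left]
      exact Finset.sum_eq_zero fun ε _ => by rw [ip_irr (hirr ε) hχi, if_neg (hcon ε)]
    obtain ⟨ε, rfl⟩ := h1
    have h2 : P (ε ∘ (finRotate (k + 1)).symm) = P ε := by
      funext g
      rw [← htw ε g]
      exact hχs g
    have h3 := const_of_shift (hinj h2)
    have h4 : ε = fun _ => ε 0 := funext h3
    cases h5 : ε 0
    · right
      rw [h4, h5]
    · left
      rw [h4, h5]
  · rw [hPe, (hg _).hh, Finset.prod_const, Finset.card_univ, Fintype.card_fin]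
    unfold dd
    rw [if_pos rfl, div_pow, ← pow_mul, Nat.mul_comm c.s]
  · rw [hPe, (hg _).hh, Finset.prod_const, Finset.card_univ, Fintype.card_fin]
    unfold dd
    rw [if_neg (by decide)]

end Vale.Agent.P275.H677
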