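import Vale.Agent.P275.H633.FixD

/-!
# Row X2: the weighted count of the fixed locus for the model
-/

namespace Vale.Agent.P275.H677.X2

open scoped BigOperators MatrixGroups
open Module Matrix Vale.Agent.P275.H85 Vale.Agent.P275.H341 Vale.Agent.P275.H633

theorem prodcomm_map {G H : Type} [Group G] [Group H] (Φ : G →* H) {k : ℕ} (A B : Fin k → G) :
    (List.ofFn fun i => Φ (A i) * Φ (B i) * (Φ (A i))⁻¹ * (Φ (B i))⁻¹).prod =
      Φ ((List.ofFn fun i => A i * B i * (A i)⁻¹ * (B i)⁻¹).prod) := by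
  rw [map_list_prod, List.map_ofFn]
  refine congrArg List.prod (congrArg List.ofFn ?_)
  funext i
  simp only [Function.comp_apply, map_mul, map_inv]

theorem scalar_comm {F : Type} [Field F] {n : ℕ} (c : Fˣ) (g : GL (Fin n) F) :
    Matrix.GeneralLinearGroup.scalar (Fin n) c * g
      = g * Matrix.GeneralLinearGroup.scalar (Fin n) c := by
  have h : Matrix.GeneralLinearGroup.scalar (Fin n) c ∈ Subgroup.center (GL (Fin n) F) := by
    rw [Matrix.GeneralLinearGroup.center_eq_range_scalar]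
    exact ⟨c, rfl⟩
  exact (Subgroup.mem_center_iff.1 h g).symm

theorem rowX2 : RowX2 := by
  intro F E _ _ _ _ _ _ _ φ e r n g ω β h s Φ ζ κ M
  have hwc : ∀ x : GL (Fin n) F, Matrix.GeneralLinearGroup.scalar (Fin n) ω * x
      = x * Matrix.GeneralLinearGroup.scalar (Fin n) ω := scalar_comm ω
  have htw := M.tw
  unfold tS twSum
  generalize Matrix.GeneralLinearGroup.scalar (Fin n) ω = w at hwc htw ⊢
  have hcen : ∀ b, Φ b * h = h * Φ b := fun b => (M.cen _).2 ⟨b, rfl⟩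
  symm
  -- the sum over `a`
  refine Fintype.sum_of_injective (fun a' => Φ a' * s)
    (fun x y hxy => M.inj (mul_right_cancel hxy)) _ _ ?_ ?_
  · intro a ha
    refine Finset.sum_eq_zero fun b _ => Finset.sum_eq_zero fun A _ =>
      Finset.sum_eq_zero fun B _ => if_neg ?_
    rintro ⟨-, h2, -⟩
    apply ha
    have h3 : (a * s⁻¹) * h = h * (a * s⁻¹) := by
      have h4 : s⁻¹ * h = w⁻¹ * h * s⁻¹ := by
        have h5 : h * s⁻¹ = s⁻¹ * (w * h) := by
          rw [eq_inv_mul_iff_mul_eq, ← mul_assoc, htw]; group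
        have h6 : w⁻¹ * h * s⁻¹ = w⁻¹ * (s⁻¹ * (w * h)) := by rw [mul_assoc, h5]
        rw [h6, ← mul_assoc s⁻¹ w h, ← hwc s⁻¹]; group
      rw [mul_assoc, h4]
      have h7 : a * (w⁻¹ * h * s⁻¹) = w⁻¹ * (a * h) * s⁻¹ := by
        have h8 : a * w⁻¹ = w⁻¹ * a := by
          rw [eq_inv_mul_iff_mul_eq, ← mul_assoc, hwc a]; group
        rw [← mul_assoc, ← mul_assoc, h8]; group
      rw [h7, h2]; group
    obtain ⟨b, hb⟩ := (M.cen _).1 h3
    exact ⟨b, by show Φ b * s = a; rw [hb]; group⟩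
  intro a'
  -- the sum over `b`
  refine Fintype.sum_of_injective (fun b' => Φ b') M.inj _ _ ?_ ?_
  · intro b hb
    refine Finset.sum_eq_zero fun A _ => Finset.sum_eq_zero fun B _ => if_neg ?_
    rintro ⟨-, -, h2, -⟩
    exact hb ((M.cen _).1 h2)
  intro b'
  have hinjF : Function.Injective fun (A' : Fin (g - 1) → Fin e → GL (Fin r) E) =>
      fun i => Φ (A' i) := by
    intro x y hxy
    funext i
    exact M.inj (congrFun hxy i)
  have hran : ∀ A : Fin (g - 1) → GL (Fin n) F, (∀ i, A i * h = h * A i) →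
      A ∈ Set.range fun (A' : Fin (g - 1) → Fin e → GL (Fin r) E) => fun i => Φ (A' i) := by
    intro A hA
    choose A' hA' using fun i => (M.cen _).1 (hA i)
    exact ⟨A', funext hA'⟩
  -- the sum over `A`
  refine Fintype.sum_of_injective _ hinjF _ _ ?_ ?_
  · intro A hA
    refine Finset.sum_eq_zero fun B _ => if_neg ?_
    rintro ⟨-, -, -, h2⟩
    exact hA (hran A fun i => (h2 i).1)
  intro A'
  -- the sum over `B`
  refine Fintype.sum_of_injective _ hinjF _ _ ?_ ?_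
  · intro B hB
    refine if_neg ?_
    rintro ⟨-, -, -, h2⟩
    exact hB (hran B fun i => (h2 i).2)
  intro B'
  have hval : ((κ (Matrix.GeneralLinearGroup.det (Φ b')) : ℂˣ) : ℂ)
      = ∏ i, ((κ (nrm F (Matrix.GeneralLinearGroup.det (b' i))) : ℂˣ) : ℂ) := by
    rw [M.dt, map_prod, Units.coe_prod]
  have hrel : (Φ a' * s * Φ b' * (Φ a' * s)⁻¹ * (Φ b')⁻¹ *
      (List.ofFn fun i => Φ (A' i) * Φ (B' i) * (Φ (A' i))⁻¹ * (Φ (B' i))⁻¹).prod) =
      Φ (a' * shf (fr φ r) b' * a'⁻¹ * b'⁻¹ *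
          (List.ofFn fun i => A' i * B' i * (A' i)⁻¹ * (B' i)⁻¹).prod) := by
    rw [prodcomm_map, map_mul, map_mul, map_mul, map_mul, map_inv, map_inv, ← M.shift]
    group
  have hiff : (Φ a' * s * Φ b' * (Φ a' * s)⁻¹ * (Φ b')⁻¹ *
      (List.ofFn fun i => Φ (A' i) * Φ (B' i) * (Φ (A' i))⁻¹ * (Φ (B' i))⁻¹).prod =
        Matrix.GeneralLinearGroup.scalar (Fin n) ζ ∧ Φ a' * s * h = w * h * (Φ a' * s) ∧
        Φ b' * h = h * Φ b' ∧ ∀ i, Φ (A' i) * h = h * Φ (A' i) ∧ Φ (B' i) * h = h * Φ (B' i)) ↔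
      (a' * shf (fr φ r) b' * a'⁻¹ * b'⁻¹ *
          (List.ofFn fun i => A' i * B' i * (A' i)⁻¹ * (B' i)⁻¹).prod
        = fun _ => Matrix.GeneralLinearGroup.scalar (Fin r) (inc E ζ)) := by
    constructor
    · rintro ⟨h1, -⟩
      rw [hrel, ← M.scl] at h1
      exact M.inj h1
    · intro h1
      refine ⟨by rw [hrel, h1, M.scl], ?_, hcen b', fun i => ⟨hcen _, hcen _⟩⟩
      rw [mul_assoc (Φ a') s h, htw, ← mul_assoc (Φ a') (w * h) s, ← mul_assoc (Φ a') w h,
        ← hwc (Φ a'), mul_assoc w (Φ a') h, hcen a']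
      group
  by_cases hc : a' * shf (fr φ r) b' * a'⁻¹ * b'⁻¹ *
          (List.ofFn fun i => A' i * B' i * (A' i)⁻¹ * (B' i)⁻¹).prod
        = fun _ => Matrix.GeneralLinearGroup.scalar (Fin r) (inc E ζ)
  · rw [if_pos hc]
    exact hval.symm.trans (if_pos (hiff.2 hc)).symm
  · rw [if_neg hc]
    exact (if_neg fun h' => hc (hiff.1 h')).symm

end Vale.Agent.P275.H677.X2
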