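import Vale.Agent.P275.H677.A1
import Vale.Agent.P275.H510.A6

/-!
# The parts of a basis element over the primitive elements
-/

namespace Vale.Agent.P275.H677.Pt

open scoped BigOperators
open Vale.Agent.P275.H341 Vale.Agent.P275.H677.A1

variable {I : Type} (H : PSH I)

/-- `p` divides `z` -/
def Dv (p z : I) : Prop := ∃ b, H.c p b z ≠ 0

theorem away_iff {p z : I} : H.Away p z ↔ ¬ Dv H p z := by
  unfold PSH.Away Dv
  push Not
  rfl

theorem dv_iff {p : I} (hp : H.Pr p) {a b z : I} (h : H.c a b z ≠ 0) :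
    Dv H p z ↔ Dv H p a ∨ Dv H p b := by
  constructor
  · rintro ⟨e, he⟩
    rw [H.c_comm] at he
    rcases hopf_ex H hp h he with ⟨t, ht, _⟩ | ⟨s, hs, _⟩
    · exact Or.inr ⟨t, by rw [H.c_comm]; exact ht⟩
    · exact Or.inl ⟨s, by rw [H.c_comm]; exact hs⟩
  · rintro (⟨e, he⟩ | ⟨e, he⟩)
    · obtain ⟨x, _, hx⟩ := assoc_ex H he h
      exact ⟨x, hx⟩
    · rw [H.c_comm] at h
      obtain ⟨x, _, hx⟩ := assoc_ex H he h
      exact ⟨x, hx⟩

theorem dv_deg {p z : I} (h : Dv H p z) : H.deg p ≤ H.deg z := by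
  obtain ⟨b, hb⟩ := h
  have := H.c_deg _ _ _ hb
  omega

theorem dv_self (p : I) : Dv H p p := ⟨H.one, by rw [c_right_one]; exact one_ne_zero⟩

theorem not_dv_one {p : I} (hp : H.Pr p) : ¬ Dv H p H.one := by
  intro h
  have h1 := dv_deg H h
  have h2 := hp.1
  rw [deg_one] at h1
  omega

theorem exists_pr (z : I) (hz : z ≠ H.one) : ∃ p, H.Pr p ∧ Dv H p z := by
  obtain ⟨n, hn⟩ : ∃ n, n = H.deg z := ⟨_, rfl⟩
  induction n using Nat.strong_induction_on generalizing z with
  | _ n ih =>
    by_cases h : H.Pr z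
    · exact ⟨z, h, dv_self H z⟩
    · have h1 : 0 < H.deg z := by
        rcases Nat.eq_zero_or_pos (H.deg z) with h0 | h0
        · exact absurd (eq_one H h0) hz
        · exact h0
      unfold PSH.Pr at h
      push Not at h
      obtain ⟨a, b, hab, ha, hb⟩ := h h1
      have h2 := H.c_deg _ _ _ hab
      have h3 : H.deg b ≠ 0 := fun h0 => hb (eq_one H h0)
      obtain ⟨p, hp, hpa⟩ := ih (H.deg a) (by omega) a ha rfl
      exact ⟨p, hp, (dv_iff H hp hab).2 (Or.inl hpa)⟩

theorem isProd_unique {a b z z' : I} (h : H.IsProd a b z) (h' : H.IsProd a b z') : z = z' := by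
  by_contra hne
  have h1 := h.2 z' (fun e => hne e.symm)
  rw [h'.1] at h1
  exact one_ne_zero h1

theorem isProd_of_ne {a b z z' : I} (h : H.IsProd a b z) (h' : H.c a b z' ≠ 0) : z' = z := by
  by_contra hne
  exact h' (h.2 z' hne)

theorem isProd_ne {a b z : I} (h : H.IsProd a b z) : H.c a b z ≠ 0 := by
  rw [h.1]
  exact one_ne_zero

theorem isProd_deg {a b z : I} (h : H.IsProd a b z) : H.deg z = H.deg a + H.deg b :=
  H.c_deg _ _ _ (isProd_ne H h)

theorem isProd_one (z : I) : H.IsProd H.one z z := ⟨H.c_one_self z, fun x hx => H.c_one_ne z x hx⟩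

theorem isProd_one' (z : I) : H.IsProd z H.one z :=
  ⟨c_right_one H z, fun x hx => by rw [H.c_comm]; exact H.c_one_ne z x hx⟩

theorem only_one {p : I} : H.Only p H.one := fun _ hp' h => absurd h (not_dv_one H hp')

open scoped Classical in
/-- the part of `z` over `p` -/
noncomputable def pi (p z : I) : I :=
  if h : ∃ ab : I × I, H.Only p ab.1 ∧ H.Away p ab.2 ∧ H.IsProd ab.1 ab.2 z then h.choose.1
  else H.one

variable (hA : RowA3)
include hA

theorem pi_spec {p : I} (hp : H.Pr p) (z : I) :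
    H.Only p (pi H p z) ∧ ∃ b, H.Away p b ∧ H.IsProd (pi H p z) b z := by
  have h : ∃ ab : I × I, H.Only p ab.1 ∧ H.Away p ab.2 ∧ H.IsProd ab.1 ab.2 z :=
    (((hA I H p hp).2 z).exists)
  unfold pi
  rw [dif_pos h]
  exact ⟨h.choose_spec.1, _, h.choose_spec.2.1, h.choose_spec.2.2⟩

theorem pi_of {p : I} (hp : H.Pr p) {a b z : I} (ha : H.Only p a) (hb : H.Away p b)
    (h : H.IsProd a b z) : pi H p z = a := by
  obtain ⟨h1, b', h2, h3⟩ := pi_spec H hA hp z
  have h4 := ((hA I H p hp).2 z).unique (y₁ := (pi H p z, b')) (y₂ := (a, b))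
    ⟨h1, h2, h3⟩ ⟨ha, hb, h⟩
  exact congrArg Prod.fst h4

theorem part_unique {p : I} (hp : H.Pr p) {a b a' b' z : I} (ha : H.Only p a) (hb : H.Away p b)
    (h : H.IsProd a b z) (ha' : H.Only p a') (hb' : H.Away p b') (h' : H.IsProd a' b' z) :
    a = a' ∧ b = b' := by
  have h4 := ((hA I H p hp).2 z).unique (y₁ := (a, b)) (y₂ := (a', b'))
    ⟨ha, hb, h⟩ ⟨ha', hb', h'⟩
  exact ⟨congrArg Prod.fst h4, congrArg Prod.snd h4⟩

theorem pi_away {p : I} (hp : H.Pr p) {z : I} (h : H.Away p z) : pi H p z = H.one :=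
  pi_of H hA hp (only_one H) h (isProd_one H z)

theorem away_of_pi {p : I} (hp : H.Pr p) {z : I} (h : pi H p z = H.one) : H.Away p z := by
  obtain ⟨_, b, h2, h3⟩ := pi_spec H hA hp z
  rw [h] at h3
  have := isProd_unique H h3 (isProd_one H b)
  rw [this]
  exact h2

/-- the part of a product by an element away from `p` -/
theorem pi_mul {p : I} (hp : H.Pr p) {a b z : I} (h : H.IsProd a b z) (ha : H.Away p a) :
    pi H p z = pi H p b := by
  obtain ⟨h1, y, h2, h3⟩ := pi_spec H hA hp b
  set x := pi H p b with hx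
  -- `y * a` is a basis element
  have hassoc : ∀ z', ∑ e ∈ H.lvl (H.deg x + H.deg y), H.c x y e * H.c e a z'
      = ∑ e ∈ H.lvl (H.deg y + H.deg a), H.c y a e * H.c x e z' := fun z' => H.c_assoc x y a z'
  have hL : ∀ z', ∑ e ∈ H.lvl (H.deg x + H.deg y), H.c x y e * H.c e a z' = H.c b a z' := by
    intro z'
    rw [Finset.sum_eq_single b]
    · rw [h3.1, one_mul]
    · intro e _ he
      rw [h3.2 e he, zero_mul]
    · intro hb
      exact absurd ((H.mem_lvl _ _).2 (isProd_deg H h3)) hb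
  have hba : H.c b a z = 1 := by rw [H.c_comm]; exact h.1
  have hba' : ∀ z', z' ≠ z → H.c b a z' = 0 := fun z' hz' => by rw [H.c_comm]; exact h.2 z' hz'
  have hAw : ∀ e, H.c y a e ≠ 0 → H.Away p e := by
    intro e he
    rw [away_iff, dv_iff H hp he, not_or, ← away_iff, ← away_iff]
    exact ⟨h2, ha⟩
  have hsum : ∑ e ∈ H.lvl (H.deg y + H.deg a), H.c y a e * H.c x e z = 1 := by
    rw [← hassoc, hL, hba]
  obtain ⟨e, heL, he⟩ : ∃ e ∈ H.lvl (H.deg y + H.deg a), H.c y a e * H.c x e z ≠ 0 := by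
    by_contra hcon
    push Not at hcon
    rw [Finset.sum_eq_zero hcon] at hsum
    exact absurd hsum (by norm_num)
  have he1 : H.c y a e ≠ 0 := left_ne_zero_of_mul he
  have he2 : H.c x e z ≠ 0 := right_ne_zero_of_mul he
  obtain ⟨z', hz'⟩ := (hA I H p hp).1 x e h1 (hAw e he1)
  have hzz : z = z' := isProd_of_ne H hz' he2
  rw [← hzz] at hz'
  exact pi_of H hA hp h1 (hAw e he1) hz'

theorem pi_mul_only {p p' : I} (_hp : H.Pr p) (hp' : H.Pr p') (hne : p' ≠ p) {a b z : I}
    (h : H.IsProd a b z) (ha : H.Only p a) : pi H p' z = pi H p' b := by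
  refine pi_mul H hA hp' h ?_
  rw [away_iff]
  intro hd
  exact hne (ha p' hp' hd)

/-- the parts determine the element -/
theorem pi_ext {z z' : I} (h : ∀ p, H.Pr p → pi H p z = pi H p z') : z = z' := by
  obtain ⟨n, hn⟩ : ∃ n, n = H.deg z := ⟨_, rfl⟩
  induction n using Nat.strong_induction_on generalizing z z' with
  | _ n ih =>
    by_cases hz : z = H.one
    · by_contra hne
      rw [hz] at hne
      obtain ⟨p, hp, hd⟩ := exists_pr H z' (fun e => hne e.symm)
      have h1 : pi H p z = H.one := by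
        rw [hz]
        exact pi_away H hA hp ((away_iff H).2 (not_dv_one H hp))
      rw [h p hp] at h1
      exact (away_iff H).1 (away_of_pi H hA hp h1) hd
    · obtain ⟨p, hp, hd⟩ := exists_pr H z hz
      obtain ⟨h1, b, h2, h3⟩ := pi_spec H hA hp z
      obtain ⟨h1', b', h2', h3'⟩ := pi_spec H hA hp z'
      have hpi : H.deg (pi H p z) ≠ 0 := by
        intro h0
        exact (away_iff H).1 (away_of_pi H hA hp (eq_one H h0)) hd
      have hdeg := isProd_deg H h3
      have hbb : b = b' := by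
        refine ih (H.deg b) (by omega) (fun p' hp' => ?_) rfl
        by_cases hpp : p' = p
        · rw [hpp, pi_away H hA hp h2, pi_away H hA hp h2']
        · rw [← pi_mul_only H hA hp hp' hpp h3 h1, ← pi_mul_only H hA hp hp' hpp h3' h1', h p' hp']
      rw [← hbb, ← h p hp] at h3'
      exact isProd_unique H h3 h3'

/-- an element with given parts over a finite set of primitive elements -/
theorem glue {W : I → ℂ}
    (hW : ∀ a b z, H.IsProd a b z → W z = W a * W b) (O : Finset I) (hO : ∀ p ∈ O, H.Pr p)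
    (f : I → I) (hf : ∀ p ∈ O, H.Only p (f p)) (b : I) (hb : ∀ p ∈ O, H.Away p b) :
    ∃ z, (∀ p ∈ O, pi H p z = f p) ∧ (∀ p, H.Pr p → p ∉ O → pi H p z = pi H p b) ∧
      H.deg z = ∑ p ∈ O, H.deg (f p) + H.deg b ∧ W z = (∏ p ∈ O, W (f p)) * W b := by
  classical
  induction O using Finset.induction_on with
  | empty =>
    exact ⟨b, fun p hp => absurd hp (Finset.notMem_empty p), fun _ _ _ => rfl, by simp, by simp⟩
  | insert p O hpO ih =>
    have hp := hO p (Finset.mem_insert_self p O)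
    obtain ⟨z0, h1, h2, h3, h4⟩ := ih (fun p' h => hO p' (Finset.mem_insert_of_mem h))
      (fun p' h => hf p' (Finset.mem_insert_of_mem h))
      (fun p' h => hb p' (Finset.mem_insert_of_mem h))
    have hz0 : H.Away p z0 := by
      apply away_of_pi H hA hp
      rw [h2 p hp hpO]
      exact pi_away H hA hp (hb p (Finset.mem_insert_self p O))
    have hfp := hf p (Finset.mem_insert_self p O)
    obtain ⟨z, hz⟩ := (hA I H p hp).1 (f p) z0 hfp hz0
    refine ⟨z, ?_, ?_, ?_, ?_⟩
    · intro p' hp'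
      rcases Finset.mem_insert.1 hp' with h | h
      · rw [h]
        exact pi_of H hA hp hfp hz0 hz
      · have hne : p' ≠ p := fun e => hpO (e ▸ h)
        rw [pi_mul_only H hA hp (hO p' hp') hne hz hfp]
        exact h1 p' h
    · intro p' hp' hnot
      have hne : p' ≠ p := fun e => hnot (e ▸ Finset.mem_insert_self p' O)
      rw [pi_mul_only H hA hp hp' hne hz hfp]
      exact h2 p' hp' (fun e => hnot (Finset.mem_insert_of_mem e))
    · rw [isProd_deg H hz, h3, Finset.sum_insert hpO]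
      ring
    · rw [hW _ _ _ hz, h4, Finset.prod_insert hpO]
      ring

/-- removing the parts over a finite set of primitive elements -/
theorem peel (O : Finset I) (hO : ∀ p ∈ O, H.Pr p) (z : I) :
    ∃ b, (∀ p ∈ O, pi H p b = H.one) ∧ ∀ p, H.Pr p → p ∉ O → pi H p b = pi H p z := by
  classical
  induction O using Finset.induction_on with
  | empty => exact ⟨z, fun p hp => absurd hp (Finset.notMem_empty p), fun _ _ _ => rfl⟩
  | insert p O hpO ih =>
    have hp := hO p (Finset.mem_insert_self p O)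
    obtain ⟨b0, h1, h2⟩ := ih (fun p' h => hO p' (Finset.mem_insert_of_mem h))
    obtain ⟨h3, b, h4, h5⟩ := pi_spec H hA hp b0
    refine ⟨b, ?_, ?_⟩
    · intro p' hp'
      rcases Finset.mem_insert.1 hp' with h | h
      · rw [h]
        exact pi_away H hA hp h4
      · have hne : p' ≠ p := fun e => hpO (e ▸ h)
        rw [← pi_mul_only H hA hp (hO p' hp') hne h5 h3]
        exact h1 p' h
    · intro p' hp' hnot
      have hne : p' ≠ p := fun e => hnot (e ▸ Finset.mem_insert_self p' O)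
      rw [← pi_mul_only H hA hp hp' hne h5 h3]
      exact h2 p' hp' (fun e => hnot (Finset.mem_insert_of_mem e))

/-- automorphisms and parts -/
theorem pi_aut (τ : H.Aut) {p : I} (hp : H.Pr p) (z : I) :
    pi H (τ.t p) (τ.t z) = τ.t (pi H p z) := by
  obtain ⟨h1, b, h2, h3⟩ := pi_spec H hA hp z
  refine pi_of H hA (H510.aut_pr H τ hp) (H510.aut_only H τ h1) (b := τ.t b) ?_ ?_
  · intro e
    have := h2 (τ.t.symm e)
    rw [← τ.c, Equiv.apply_symm_apply] at this
    exact this
  · refine ⟨by rw [τ.c]; exact h3.1, fun x hx => ?_⟩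
    have := h3.2 (τ.t.symm x) (fun e => hx (by rw [← e, Equiv.apply_symm_apply]))
    rw [← τ.c, Equiv.apply_symm_apply] at this
    exact this

end Vale.Agent.P275.H677.Pt
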