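import Vale.Agent.P275.H633.FixD
import Vale.Agent.P275.H93.E4

/-!
# Row X3: conjugacy of the elements which realise the fixed point equation
-/

set_option linter.all false

namespace Vale.Agent.P275.H677.X3

open Polynomial Module

/-- two modules over the field `F[X]/(p)` with the same number of elements -/
theorem exists_equiv {F V V' : Type} [Field F] [Finite F] [AddCommGroup V] [Module F V] [Finite V]
    [AddCommGroup V'] [Module F V'] [Finite V'] (p : F[X]) (hp : Irreducible p)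
    (f : Module.End F V) (f' : Module.End F V') (hf : aeval f p = 0) (hf' : aeval f' p = 0)
    (hc : Nat.card V = Nat.card V') : ∃ T : V ≃ₗ[F] V', ∀ v, T (f v) = f' (T v) := by
  haveI : Fact (Irreducible p) := ⟨hp⟩
  have hz : ∀ {U : Type} [AddCommGroup U] [Module F U] (f : Module.End F U), aeval f p = 0 →
      ∀ q ∈ Ideal.span {p}, (aeval f : F[X] →ₐ[F] Module.End F U).toRingHom q = 0 := by
    intro U _ _ f hf q hq
    rw [Ideal.mem_span_singleton] at hq
    obtain ⟨s, rfl⟩ := hq
    show aeval f (p * s) = 0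
    rw [map_mul, hf, zero_mul]
  let φ : AdjoinRoot p →+* Module.End F V :=
    Ideal.Quotient.lift (Ideal.span {p}) (aeval f).toRingHom (hz f hf)
  let φ' : AdjoinRoot p →+* Module.End F V' :=
    Ideal.Quotient.lift (Ideal.span {p}) (aeval f').toRingHom (hz f' hf')
  letI m1 : Module (AdjoinRoot p) V := Module.compHom V φ
  letI m2 : Module (AdjoinRoot p) V' := Module.compHom V' φ'
  have h1 : ∀ (q : F[X]) (v : V), (AdjoinRoot.mk p q) • v = aeval f q v := fun _ _ => rfl
  have h2 : ∀ (q : F[X]) (v : V'), (AdjoinRoot.mk p q) • v = aeval f' q v := fun _ _ => rfl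
  haveI : Module.Finite F (AdjoinRoot p) := (AdjoinRoot.powerBasis hp.ne_zero).finite
  haveI : Finite (AdjoinRoot p) := Module.finite_of_finite F
  haveI : Module.Finite (AdjoinRoot p) V := Module.Finite.of_finite
  haveI : Module.Finite (AdjoinRoot p) V' := Module.Finite.of_finite
  have h3 : finrank (AdjoinRoot p) V = finrank (AdjoinRoot p) V' := by
    have h4 : Nat.card V = Nat.card (AdjoinRoot p) ^ finrank (AdjoinRoot p) V :=
      Module.natCard_eq_pow_finrank
    have h5 : Nat.card V' = Nat.card (AdjoinRoot p) ^ finrank (AdjoinRoot p) V' :=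
      Module.natCard_eq_pow_finrank
    rw [h4, h5] at hc
    exact Nat.pow_right_injective (Finite.one_lt_card (α := AdjoinRoot p)) hc
  let T : V ≃ₗ[AdjoinRoot p] V' := LinearEquiv.ofFinrankEq V V' h3
  have hT : ∀ (q : F[X]) (v : V), T (aeval f q v) = aeval f' q (T v) := by
    intro q v
    rw [← h1, ← h2, map_smul]
  refine ⟨{ T.toAddEquiv with
    map_smul' := fun c v => ?_ }, fun v => ?_⟩
  · have h4 := hT (C c) v
    rw [aeval_C, aeval_C, Module.algebraMap_end_apply, Module.algebraMap_end_apply] at h4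
    exact h4
  · have h4 := hT X v
    rw [aeval_X, aeval_X] at h4
    exact h4

section ring

variable {F R : Type} [Field F] [Ring R] [Algebra F R]

/-- the projection to the fixed part of `y` -/
noncomputable def pj (F : Type) [Field F] [Algebra F R] (e : ℕ) (y : R) : R :=
  ((e : F)⁻¹) • ∑ j ∈ Finset.range e, y ^ j

theorem y_pj {e : ℕ} {y : R} (hy : y ^ e = 1) : y * pj F e y = pj F e y := by
  have h1 := mul_geom_sum y e
  rw [hy, sub_self, sub_mul, one_mul, sub_eq_zero] at h1
  unfold pj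
  rw [mul_smul_comm, h1]

theorem pj_y {e : ℕ} {y : R} (hy : y ^ e = 1) : pj F e y * y = pj F e y := by
  have h1 := geom_sum_mul y e
  rw [hy, sub_self, mul_sub, mul_one, sub_eq_zero] at h1
  unfold pj
  rw [smul_mul_assoc, h1]

theorem y_pow {η : F} {y : R} {a : Rˣ} (h : (a : R) * y = η • (y * a)) (k : ℕ) :
    ((a ^ k : Rˣ) : R) * y = η ^ k • (y * ((a ^ k : Rˣ) : R)) := by
  induction k with
  | zero => simp
  | succ k ih =>
    rw [pow_succ, Units.val_mul, mul_assoc, h, mul_smul_comm, ← mul_assoc, ih, smul_mul_assoc,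
      smul_smul, mul_assoc, pow_succ, mul_comm]

theorem y_pow' {η : F} {y : R} {a : Rˣ} (h : (a : R) * y = η • (y * a)) (k j : ℕ) :
    ((a ^ k : Rˣ) : R) * y ^ j = (η ^ k) ^ j • (y ^ j * ((a ^ k : Rˣ) : R)) := by
  induction j with
  | zero => simp
  | succ j ih =>
    rw [pow_succ, ← mul_assoc, ih, smul_mul_assoc, mul_assoc, y_pow h, mul_smul_comm, smul_smul,
      ← mul_assoc, pow_succ]

theorem pj_off {e : ℕ} {η : F} (hη : IsPrimitiveRoot η e) {y : R} (hy : y ^ e = 1) {a : Rˣ}
    (h : (a : R) * y = η • (y * a)) {k : ℕ} (h0 : k ≠ 0) (hk : k < e) :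
    pj F e y * ((a ^ k : Rˣ) : R) * pj F e y = 0 ∧
    pj F e y * (((a ^ k)⁻¹ : Rˣ) : R) * pj F e y = 0 := by
  have hne : η ^ k ≠ 1 := hη.pow_ne_one_of_pos_of_lt h0 hk
  have h1 := y_pow h k
  have h2 : y * (((a ^ k)⁻¹ : Rˣ) : R) = η ^ k • ((((a ^ k)⁻¹ : Rˣ) : R) * y) := by
    have h3 : (((a ^ k)⁻¹ : Rˣ) : R) * (((a ^ k : Rˣ) : R) * y) * (((a ^ k)⁻¹ : Rˣ) : R)
        = (((a ^ k)⁻¹ : Rˣ) : R) * (η ^ k • (y * ((a ^ k : Rˣ) : R))) *
          (((a ^ k)⁻¹ : Rˣ) : R) := by rw [h1]
    rw [← mul_assoc, Units.inv_mul, one_mul, mul_smul_comm, smul_mul_assoc, mul_assoc,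
      mul_assoc y, Units.mul_inv, mul_one] at h3
    exact h3
  constructor
  · have h4 : pj F e y * ((a ^ k : Rˣ) : R) * pj F e y
        = η ^ k • (pj F e y * ((a ^ k : Rˣ) : R) * pj F e y) := by
      calc pj F e y * ((a ^ k : Rˣ) : R) * pj F e y
          = pj F e y * ((a ^ k : Rˣ) : R) * (y * pj F e y) := by rw [y_pj hy]
        _ = pj F e y * (((a ^ k : Rˣ) : R) * y) * pj F e y := by simp only [mul_assoc]
        _ = η ^ k • (pj F e y * ((a ^ k : Rˣ) : R) * pj F e y) := by
          rw [h1, mul_smul_comm, smul_mul_assoc, ← mul_assoc (pj F e y) y, pj_y hy]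
    have h5 : (1 - η ^ k) • (pj F e y * ((a ^ k : Rˣ) : R) * pj F e y) = 0 := by
      rw [sub_smul, one_smul, ← h4, sub_self]
    exact (smul_eq_zero_iff_right (sub_ne_zero.2 hne.symm)).1 h5
  · have h4 : pj F e y * (((a ^ k)⁻¹ : Rˣ) : R) * pj F e y
        = η ^ k • (pj F e y * (((a ^ k)⁻¹ : Rˣ) : R) * pj F e y) := by
      calc pj F e y * (((a ^ k)⁻¹ : Rˣ) : R) * pj F e y
          = pj F e y * y * (((a ^ k)⁻¹ : Rˣ) : R) * pj F e y := by rw [pj_y hy]
        _ = pj F e y * (y * (((a ^ k)⁻¹ : Rˣ) : R)) * pj F e y := by simp only [mul_assoc]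
        _ = η ^ k • (pj F e y * (((a ^ k)⁻¹ : Rˣ) : R) * (y * pj F e y)) := by
          rw [h2, mul_smul_comm, smul_mul_assoc]; simp only [mul_assoc]
        _ = _ := by rw [y_pj hy]
    have h5 : (1 - η ^ k) • (pj F e y * (((a ^ k)⁻¹ : Rˣ) : R) * pj F e y) = 0 := by
      rw [sub_smul, one_smul, ← h4, sub_self]
    exact (smul_eq_zero_iff_right (sub_ne_zero.2 hne.symm)).1 h5

theorem pj_sum {e : ℕ} {η : F} (hη : IsPrimitiveRoot η e) (he : 0 < e) {y : R} {a : Rˣ}
    (h : (a : R) * y = η • (y * a)) :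
    ∑ i ∈ Finset.range e, (((a ^ i)⁻¹ : Rˣ) : R) * pj F e y * ((a ^ i : Rˣ) : R) = 1 := by
  haveI : NeZero e := ⟨he.ne'⟩
  have he' : (e : F) ≠ 0 := hη.neZero'.out
  have hη0 : η ≠ 0 := hη.ne_zero he.ne'
  have h1 : ∀ i j : ℕ, (((a ^ i)⁻¹ : Rˣ) : R) * y ^ j * ((a ^ i : Rˣ) : R)
      = (((η ^ j)⁻¹) ^ i) • y ^ j := by
    intro i j
    have h2 := y_pow' h i j
    have h3 : y ^ j * ((a ^ i : Rˣ) : R) = ((η ^ i) ^ j)⁻¹ • (((a ^ i : Rˣ) : R) * y ^ j) := by
      rw [h2, smul_smul, inv_mul_cancel₀ (pow_ne_zero _ (pow_ne_zero _ hη0)), one_smul]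
    rw [mul_assoc, h3, mul_smul_comm, ← mul_assoc, Units.inv_mul, one_mul]
    congr 1
    rw [← pow_mul, mul_comm i j, pow_mul, inv_pow]
  have h2 : ∀ i ∈ Finset.range e, (((a ^ i)⁻¹ : Rˣ) : R) * pj F e y * ((a ^ i : Rˣ) : R)
      = ((e : F)⁻¹) • ∑ j ∈ Finset.range e, (((η ^ j)⁻¹) ^ i) • y ^ j := by
    intro i _
    unfold pj
    rw [mul_smul_comm, smul_mul_assoc, Finset.mul_sum, Finset.sum_mul]
    congr 1
    exact Finset.sum_congr rfl fun j _ => h1 i j
  rw [Finset.sum_congr rfl h2, ← Finset.smul_sum, Finset.sum_comm]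
  have h3 : ∀ j ∈ Finset.range e, ∑ i ∈ Finset.range e, (((η ^ j)⁻¹) ^ i) • y ^ j
      = if j = 0 then (e : F) • (1 : R) else 0 := by
    intro j hj
    rw [← Finset.sum_smul]
    by_cases h0 : j = 0
    · rw [if_pos h0, h0]; simp
    · rw [if_neg h0]
      have h4 : (η ^ j)⁻¹ ≠ 1 := by
        rw [Ne, inv_eq_one]
        exact hη.pow_ne_one_of_pos_of_lt h0 (Finset.mem_range.1 hj)
      have h5 := mul_geom_sum ((η ^ j)⁻¹) e
      rw [inv_pow, ← pow_mul, mul_comm j e, pow_mul, hη.pow_eq_one, one_pow, inv_one,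
        sub_self] at h5
      rw [(mul_eq_zero.1 h5).resolve_left (sub_ne_zero.2 h4), zero_smul]
  rw [Finset.sum_congr rfl h3, Finset.sum_ite_eq' (Finset.range e) 0, if_pos
    (Finset.mem_range.2 he), smul_smul, inv_mul_cancel₀ he', one_smul]

end ring

section mod

variable {F W : Type} [Field F] [AddCommGroup W] [Module F W]

/-- the fixed part -/
def V0 (y : Module.End F W) : Submodule F W := LinearMap.ker (y - 1)

theorem mem_V0 {y : Module.End F W} {v : W} : v ∈ V0 y ↔ y v = v := by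
  unfold V0
  rw [LinearMap.mem_ker, LinearMap.sub_apply, Module.End.one_apply, sub_eq_zero]

theorem pj_mem {e : ℕ} {y : Module.End F W} (hy : y ^ e = 1) (v : W) :
    pj F e y v ∈ V0 y := by
  rw [mem_V0, ← Module.End.mul_apply, y_pj hy]

theorem pj_fix {e : ℕ} (he : (e : F) ≠ 0) {y : Module.End F W} {v : W} (hv : v ∈ V0 y) :
    pj F e y v = v := by
  have h1 : ∀ j : ℕ, (y ^ j) v = v := by
    intro j
    induction j with
    | zero => simp
    | succ j ih => rw [pow_succ, Module.End.mul_apply, mem_V0.1 hv, ih]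
  unfold pj
  rw [LinearMap.smul_apply, LinearMap.sum_apply, Finset.sum_congr rfl (fun j _ => h1 j),
    Finset.sum_const, Finset.card_range, ← Nat.cast_smul_eq_nsmul F, smul_smul,
    inv_mul_cancel₀ he, one_smul]

/-- the coordinates of a vector -/
noncomputable def psi (e : ℕ) (y : Module.End F W) (hy : y ^ e = 1) (a : (Module.End F W)ˣ) :
    W →ₗ[F] (Fin e → V0 y) :=
  LinearMap.pi fun i => ((pj F e y).codRestrict (V0 y) (pj_mem hy)).comp
    ((a ^ (i : ℕ) : (Module.End F W)ˣ) : Module.End F W)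

theorem psi_apply (e : ℕ) (y : Module.End F W) (hy : y ^ e = 1) (a : (Module.End F W)ˣ) (v : W)
    (i : Fin e) : (psi e y hy a v i : W) =
      pj F e y (((a ^ (i : ℕ) : (Module.End F W)ˣ) : Module.End F W) v) := rfl

theorem psi_bij {e : ℕ} {η : F} (hη : IsPrimitiveRoot η e) (he : 0 < e)
    {y : Module.End F W} (hy : y ^ e = 1) {a : (Module.End F W)ˣ}
    (h : (a : Module.End F W) * y = η • (y * a)) : Function.Bijective (psi e y hy a) := by
  haveI : NeZero e := ⟨he.ne'⟩
  have he' : (e : F) ≠ 0 := hη.neZero'.out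
  constructor
  · rw [injective_iff_map_eq_zero]
    intro v hv
    have h1 := congrArg (fun T : Module.End F W => T v) (pj_sum hη he h)
    have h2 : ∀ i ∈ Finset.range e, ((((a ^ i)⁻¹ : (Module.End F W)ˣ) : Module.End F W) *
        pj F e y * ((a ^ i : (Module.End F W)ˣ) : Module.End F W)) v = 0 := by
      intro i hi
      have h3 : (psi e y hy a v ⟨i, Finset.mem_range.1 hi⟩ : W) = 0 := by rw [hv]; rfl
      rw [psi_apply] at h3
      rw [Module.End.mul_apply, Module.End.mul_apply, h3, map_zero]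
    simp only [LinearMap.sum_apply] at h1
    rw [Finset.sum_congr rfl h2, Finset.sum_const_zero, Module.End.one_apply] at h1
    exact h1.symm
  · intro u
    refine ⟨∑ j : Fin e, (((a ^ (j : ℕ))⁻¹ : (Module.End F W)ˣ) : Module.End F W) (u j : W), ?_⟩
    funext i
    apply Subtype.ext
    rw [psi_apply, map_sum, map_sum]
    rw [Finset.sum_eq_single i]
    · have h9 : ((a ^ (i : ℕ) : (Module.End F W)ˣ) : Module.End F W)
          ((((a ^ (i : ℕ))⁻¹ : (Module.End F W)ˣ) : Module.End F W) (u i : W)) = (u i : W) := by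
        rw [← Module.End.mul_apply, Units.mul_inv, Module.End.one_apply]
      rw [h9, pj_fix he' (u i).2]
    · intro j _ hji
      have h1 : (u j : W) = pj F e y (u j) := (pj_fix he' (u j).2).symm
      rw [h1]
      show (pj F e y * (((a ^ (i : ℕ) : (Module.End F W)ˣ) : Module.End F W) *
        ((((a ^ (j : ℕ))⁻¹ : (Module.End F W)ˣ) : Module.End F W) * pj F e y))) (u j : W) = 0
      rcases lt_or_gt_of_ne (fun h' : (j : ℕ) = i => hji (Fin.ext h')) with hlt | hlt
      · have h2 : ((a ^ (i : ℕ) : (Module.End F W)ˣ) : Module.End F W) *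
            ((((a ^ (j : ℕ))⁻¹ : (Module.End F W)ˣ) : Module.End F W) * pj F e y) =
            ((a ^ ((i : ℕ) - j) : (Module.End F W)ˣ) : Module.End F W) * pj F e y := by
          rw [← mul_assoc, ← Units.val_mul]
          congr 3
          rw [mul_inv_eq_iff_eq_mul, ← pow_add]
          congr 1
          omega
        rw [h2, ← mul_assoc, (pj_off hη hy h (by omega : (i : ℕ) - j ≠ 0)
          (by have := i.2; omega)).1, LinearMap.zero_apply]
      · have h2 : ((a ^ (i : ℕ) : (Module.End F W)ˣ) : Module.End F W) *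
            ((((a ^ (j : ℕ))⁻¹ : (Module.End F W)ˣ) : Module.End F W) * pj F e y) =
            (((a ^ ((j : ℕ) - i))⁻¹ : (Module.End F W)ˣ) : Module.End F W) * pj F e y := by
          rw [← mul_assoc, ← Units.val_mul]
          congr 3
          rw [mul_inv_eq_iff_eq_mul, eq_inv_mul_iff_mul_eq, ← pow_add]
          congr 1
          omega
        rw [h2, ← mul_assoc, (pj_off hη hy h (by omega : (j : ℕ) - i ≠ 0)
          (by have := j.2; omega)).2, LinearMap.zero_apply]
    · intro hi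
      exact absurd (Finset.mem_univ i) hi

theorem card_V0 {e : ℕ} {η : F} (hη : IsPrimitiveRoot η e) (he : 0 < e)
    {y : Module.End F W} (hy : y ^ e = 1) {a : (Module.End F W)ˣ}
    (h : (a : Module.End F W) * y = η • (y * a)) : Nat.card W = Nat.card (V0 y) ^ e := by
  rw [Nat.card_congr (Equiv.ofBijective _ (psi_bij hη he hy h)), Nat.card_fun, Nat.card_fin]

/-- the conjugacy, for linear maps -/
theorem conj_abs [Finite F] [Finite W] {δ e : ℕ} (he : 0 < e) {d ω : F} (hd : d ≠ 0)
    (hirr : Irreducible (X ^ δ - C d)) (hη : IsPrimitiveRoot (ω ^ δ) e)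
    {h h' a a' : (Module.End F W)ˣ}
    (hh : (h : Module.End F W) ^ (e * δ) = (d ^ e) • (1 : Module.End F W))
    (hh' : (h' : Module.End F W) ^ (e * δ) = (d ^ e) • (1 : Module.End F W))
    (ha : (a : Module.End F W) * h = ω • ((h : Module.End F W) * a))
    (ha' : (a' : Module.End F W) * h' = ω • ((h' : Module.End F W) * a')) :
    ∃ x : W ≃ₗ[F] W, ∀ v, x ((h : Module.End F W) v) = (h' : Module.End F W) (x v) := by
  -- the operator `y = d⁻¹ h ^ δ`
  have key : ∀ {h a : (Module.End F W)ˣ},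
      (h : Module.End F W) ^ (e * δ) = (d ^ e) • (1 : Module.End F W) →
      (a : Module.End F W) * h = ω • ((h : Module.End F W) * a) →
      (d⁻¹ • (h : Module.End F W) ^ δ) ^ e = 1 ∧
      (a : Module.End F W) * (d⁻¹ • (h : Module.End F W) ^ δ) =
        ω ^ δ • ((d⁻¹ • (h : Module.End F W) ^ δ) * a) := by
    intro h a hh ha
    constructor
    · rw [_root_.smul_pow, ← pow_mul, mul_comm δ e, hh, smul_smul, ← mul_pow, inv_mul_cancel₀ hd,
        one_pow, one_smul]
    · have h1 := y_pow' (k := 1) (j := δ) (a := a) (y := (h : Module.End F W)) (η := ω) ha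
      rw [pow_one, pow_one] at h1
      rw [mul_smul_comm, h1, smul_mul_assoc, smul_smul, smul_smul, mul_comm]
  obtain ⟨hy, hay⟩ := key hh ha
  obtain ⟨hy', hay'⟩ := key hh' ha'
  have hc : Nat.card (V0 (d⁻¹ • (h : Module.End F W) ^ δ)) =
      Nat.card (V0 (d⁻¹ • (h' : Module.End F W) ^ δ)) := by
    have h1 := card_V0 hη he hy hay
    rw [card_V0 hη he hy' hay'] at h1
    exact (Nat.pow_left_injective he.ne' h1).symm
  have hst : ∀ (h : (Module.End F W)ˣ), ∀ v ∈ V0 (d⁻¹ • (h : Module.End F W) ^ δ),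
      (h : Module.End F W) v ∈ V0 (d⁻¹ • (h : Module.End F W) ^ δ) := by
    intro h v hv
    rw [mem_V0] at hv ⊢
    have h1 : (d⁻¹ • (h : Module.End F W) ^ δ) * h = h * (d⁻¹ • (h : Module.End F W) ^ δ) := by
      rw [smul_mul_assoc, mul_smul_comm, pow_mul_comm']
    rw [← Module.End.mul_apply, h1, Module.End.mul_apply, hv]
  have hpow : ∀ (h : (Module.End F W)ˣ) (k : ℕ) (v : V0 (d⁻¹ • (h : Module.End F W) ^ δ)),
      (((((h : Module.End F W).restrict (hst h)) ^ k) v : V0 (d⁻¹ • (h : Module.End F W) ^ δ)) : W)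
        = ((h : Module.End F W) ^ k) (v : W) := by
    intro h k
    induction k with
    | zero => intro v; simp
    | succ k ih =>
      intro v
      rw [pow_succ, pow_succ, Module.End.mul_apply, Module.End.mul_apply, ih]
      rfl
  have hann : ∀ (h : (Module.End F W)ˣ),
      aeval ((h : Module.End F W).restrict (hst h)) (X ^ δ - C d : F[X]) = 0 := by
    intro h
    ext v
    rw [map_sub, map_pow, aeval_X, aeval_C, LinearMap.sub_apply, Module.algebraMap_end_apply]
    show ((((((h : Module.End F W).restrict (hst h)) ^ δ) v : V0 _) : W) - d • (v : W)) = 0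
    rw [hpow, sub_eq_zero]
    have h1 := mem_V0.1 v.2
    rw [LinearMap.smul_apply] at h1
    rw [← h1, smul_smul, mul_inv_cancel₀ hd, one_smul]
    nth_rewrite 1 [h1]
    rfl
  obtain ⟨T, hT⟩ := exists_equiv (X ^ δ - C d) hirr _ _ (hann h) (hann h') hc
  let Ψ := LinearEquiv.ofBijective (psi e _ hy a) (psi_bij hη he hy hay)
  let Ψ' := LinearEquiv.ofBijective (psi e _ hy' a') (psi_bij hη he hy' hay')
  let TT : (Fin e → V0 (d⁻¹ • (h : Module.End F W) ^ δ)) ≃ₗ[F]
      (Fin e → V0 (d⁻¹ • (h' : Module.End F W) ^ δ)) := LinearEquiv.piCongrRight fun _ => T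
  have hpsi : ∀ {h a : (Module.End F W)ˣ} (hy : (d⁻¹ • (h : Module.End F W) ^ δ) ^ e = 1)
      (ha : (a : Module.End F W) * h = ω • ((h : Module.End F W) * a)) (v : W) (i : Fin e),
      psi e _ hy a ((h : Module.End F W) v) i =
        ω ^ (i : ℕ) • ((h : Module.End F W).restrict (hst h)) (psi e _ hy a v i) := by
    intro h a hy ha v i
    apply Subtype.ext
    have h2 : ((a ^ (i : ℕ) : (Module.End F W)ˣ) : Module.End F W) ((h : Module.End F W) v) =
        ω ^ (i : ℕ) • (h : Module.End F W)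
          (((a ^ (i : ℕ) : (Module.End F W)ˣ) : Module.End F W) v) := by
      rw [← Module.End.mul_apply, y_pow ha, LinearMap.smul_apply, Module.End.mul_apply]
    rw [psi_apply, h2, map_smul]
    show _ = ω ^ (i : ℕ) • (h : Module.End F W) (psi e _ hy a v i : W)
    rw [psi_apply]
    have h1 : pj F e (d⁻¹ • (h : Module.End F W) ^ δ) * h
        = h * pj F e (d⁻¹ • (h : Module.End F W) ^ δ) := by
      unfold pj
      rw [smul_mul_assoc, mul_smul_comm, Finset.sum_mul, Finset.mul_sum]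
      congr 1
      refine Finset.sum_congr rfl fun j _ => ?_
      rw [_root_.smul_pow, smul_mul_assoc, mul_smul_comm, ← pow_mul, pow_mul_comm']
    rw [← Module.End.mul_apply, h1, Module.End.mul_apply]
  refine ⟨(Ψ.trans TT).trans Ψ'.symm, fun v => ?_⟩
  show Ψ'.symm (TT (Ψ ((h : Module.End F W) v))) = (h' : Module.End F W) (Ψ'.symm (TT (Ψ v)))
  rw [LinearEquiv.symm_apply_eq]
  funext i
  show T (psi e _ hy a ((h : Module.End F W) v) i) =
    psi e _ hy' a' ((h' : Module.End F W) (Ψ'.symm (TT (Ψ v)))) i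
  rw [hpsi hy ha, hpsi hy' ha', map_smul, hT]
  have h1 : psi e _ hy' a' (Ψ'.symm (TT (Ψ v))) = TT (Ψ v) := Ψ'.apply_symm_apply _
  rw [h1]
  rfl

end mod

section field

variable {F E : Type} [Field F] [Fintype F] [DecidableEq F] [Field E] [Fintype E] [DecidableEq E]
  [Algebra F E]

/-- the minimal polynomial of `β` -/
theorem irr (φ : E ≃ₐ[F] E) {δ : ℕ} (hδ : 0 < δ) {β : E} (hβ0 : β ≠ 0) {ε : F}
    (hε : IsPrimitiveRoot ε δ) (hβ : φ β = algebraMap F E ε * β) {d : F}
    (hd : algebraMap F E d = β ^ δ) : Irreducible (X ^ δ - C d : F[X]) := by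
  haveI : FiniteDimensional F E := Module.Finite.of_finite
  have hint : IsIntegral F β := IsIntegral.of_finite F β
  have h1 : minpoly F β ∣ (X ^ δ - C d : F[X]) := by
    apply minpoly.dvd
    rw [map_sub, map_pow, aeval_X, aeval_C, hd, sub_self]
  have hpow : ∀ i : ℕ, (φ ^ i) β = algebraMap F E (ε ^ i) * β := by
    intro i
    induction i with
    | zero => simp
    | succ i ih =>
      rw [pow_succ', AlgEquiv.mul_apply, ih, map_mul, hβ, AlgEquiv.commutes, pow_succ, map_mul,
        mul_assoc]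
  have h2 : δ ≤ (minpoly F β).natDegree := by
    have hq0 : (minpoly F β).map (algebraMap F E) ≠ 0 := by
      rw [Ne, Polynomial.map_eq_zero]
      exact minpoly.ne_zero hint
    have h3 : ((Finset.range δ).image fun i => algebraMap F E (ε ^ i) * β).val ⊆
        ((minpoly F β).map (algebraMap F E)).roots := by
      intro x hx
      rw [Finset.mem_val, Finset.mem_image] at hx
      obtain ⟨i, -, rfl⟩ := hx
      rw [mem_roots hq0, IsRoot.def, ← hpow, eval_map_algebraMap]
      have h4 : aeval ((φ ^ i) β) (minpoly F β) = (φ ^ i) (aeval β (minpoly F β)) :=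
        Polynomial.aeval_algHom_apply ((φ ^ i : E ≃ₐ[F] E) : E →ₐ[F] E) β (minpoly F β)
      rw [h4, minpoly.aeval, map_zero]
    have h5 := Polynomial.card_le_degree_of_subset_roots h3
    rw [Finset.card_image_of_injOn, Finset.card_range, natDegree_map] at h5
    · exact h5
    · intro i hi j hj hij
      have h6 : algebraMap F E (ε ^ i) = algebraMap F E (ε ^ j) := mul_right_cancel₀ hβ0 hij
      exact hε.pow_inj (Finset.mem_range.1 hi) (Finset.mem_range.1 hj)
        ((algebraMap F E).injective h6)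
  have h3 : (X ^ δ - C d : F[X]) = minpoly F β := by
    apply Polynomial.eq_of_monic_of_dvd_of_natDegree_le (minpoly.monic hint)
      (monic_X_pow_sub_C d hδ.ne') h1
    rw [natDegree_X_pow_sub_C]
    exact h2
  rw [h3]
  exact minpoly.irreducible hint

end field

open Vale.Agent.P275.H85 Vale.Agent.P275.H341 Vale.Agent.P275.H633 Matrix

theorem rowX3 : RowX3 := by
  intro F E _ _ _ _ _ _ _ φ e r n ω c β he hr hn hφ hω hβ hc h h' hh hh' ha ha'
  obtain ⟨a, ha⟩ := ha
  obtain ⟨a', ha'⟩ := ha'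
  haveI : FiniteDimensional F E := Module.Finite.of_finite
  have hδ : 0 < finrank F E := finrank_pos
  have hprim : IsPrimitiveRoot (ω : F) (e * finrank F E) := by
    rw [← hω]
    exact IsPrimitiveRoot.coe_units_iff.2 (IsPrimitiveRoot.orderOf ω)
  have hm : 0 < e * finrank F E := Nat.mul_pos he hδ
  have hη : IsPrimitiveRoot ((ω : F) ^ finrank F E) e :=
    hprim.pow hm (mul_comm _ _)
  have hε : IsPrimitiveRoot ((ω : F) ^ e) (finrank F E) := hprim.pow hm rfl
  have hfix : φ ((β : E) ^ finrank F E) = (β : E) ^ finrank F E := by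
    rw [map_pow, hβ, mul_pow, ← map_pow, ← pow_mul, hprim.pow_eq_one, map_one, one_mul]
  obtain ⟨d, hd⟩ := Vale.Agent.P275.H93.fixed_gen φ hφ hfix
  have hd0 : d ≠ 0 := by
    rintro rfl
    rw [map_zero] at hd
    exact pow_ne_zero _ β.ne_zero hd.symm
  have hcd : (c : F) = d ^ e := by
    apply (algebraMap F E).injective
    have h1 := congrArg (fun u : Eˣ => (u : E)) hc
    have h2 : algebraMap F E (c : F) = (β : E) ^ (e * finrank F E) := h1
    rw [h2, map_pow, hd, ← pow_mul, mul_comm]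
  have hirr := irr φ hδ β.ne_zero hε hβ hd
  let θ : Matrix (Fin n) (Fin n) F ≃ₐ[F] Module.End F (Fin n → F) := Matrix.toLinAlgEquiv'
  let Θ : GL (Fin n) F →* (Module.End F (Fin n → F))ˣ := Units.map (θ : _ →* _)
  have hsc : ∀ u : Fˣ, ((Matrix.GeneralLinearGroup.scalar (Fin n) u : GL (Fin n) F) :
      Matrix (Fin n) (Fin n) F) = (u : F) • 1 := by
    intro u
    show Matrix.scalar (Fin n) (u : F) = _
    rw [Matrix.scalar_apply, Matrix.smul_one_eq_diagonal]
  have h1 : ∀ h : GL (Fin n) F, h ^ (e * finrank F E) = Matrix.GeneralLinearGroup.scalar (Fin n) c →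
      ((Θ h : (Module.End F (Fin n → F))ˣ) : Module.End F (Fin n → F)) ^ (e * finrank F E) =
        (d ^ e) • (1 : Module.End F (Fin n → F)) := by
    intro h hh
    show (θ (h : Matrix (Fin n) (Fin n) F)) ^ (e * finrank F E) = _
    rw [← map_pow, ← Units.val_pow_eq_pow_val, hh, hsc, map_smul, map_one, hcd]
  have h2 : ∀ h a : GL (Fin n) F, a * h = Matrix.GeneralLinearGroup.scalar (Fin n) ω * h * a →
      ((Θ a : (Module.End F (Fin n → F))ˣ) : Module.End F (Fin n → F)) * (Θ h) =
        (ω : F) • ((Θ h : Module.End F (Fin n → F)) * (Θ a : Module.End F (Fin n → F))) := by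
    intro h a ha
    show θ (a : Matrix (Fin n) (Fin n) F) * θ h = (ω : F) • (θ h * θ a)
    have h3 := congrArg (fun g : GL (Fin n) F => (g : Matrix (Fin n) (Fin n) F)) ha
    simp only [Units.val_mul] at h3
    rw [hsc, smul_mul_assoc, one_mul, smul_mul_assoc] at h3
    rw [← map_mul, h3, map_smul, map_mul]
  obtain ⟨x, hx⟩ := conj_abs he hd0 hirr hη (h1 h hh) (h1 h' hh') (h2 h a ha) (h2 h' a' ha')
  let X' : (Module.End F (Fin n → F))ˣ := LinearMap.GeneralLinearGroup.ofLinearEquiv x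
  let Y : GL (Fin n) F := Units.map (θ.symm : _ →* _) X'
  refine ⟨Y, ?_⟩
  rw [mul_inv_eq_iff_eq_mul]
  apply Units.ext
  apply θ.injective
  show θ (θ.symm (X' : Module.End F (Fin n → F)) * (h : Matrix (Fin n) (Fin n) F)) =
    θ ((h' : Matrix (Fin n) (Fin n) F) * θ.symm (X' : Module.End F (Fin n → F)))
  rw [map_mul, map_mul, AlgEquiv.apply_symm_apply]
  apply LinearMap.ext
  intro v
  exact hx v

end Vale.Agent.P275.H677.X3
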